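import Mathlib

/-! Definitions for the statement on universal covers with a product presentation. -/

open Set Filter Topology
open scoped Manifold

namespace Vale.Agent.N274X

/-- A finite Boolean combination of sets `p = 0` and `p > 0` in `ℂ^n`, where `p` is a real
polynomial in the real and imaginary parts of the coordinates. -/
def Semialgebraic {n : ℕ} (S : Set (EuclideanSpace ℂ (Fin n))) : Prop :=
  S ∈ BooleanSubalgebra.closure {T : Set (EuclideanSpace ℂ (Fin n)) |
    ∃ p : MvPolynomial (Fin n ⊕ Fin n) ℝ,
      T = {z | p.eval (Sum.elim (fun i => (z i).re) fun i => (z i).im) = 0} ∨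
      T = {z | 0 < p.eval (Sum.elim (fun i => (z i).re) fun i => (z i).im)}}

/-- A relatively open subset of an affine variety in `ℂ^n`. -/
def OpenInVariety {n : ℕ} (U : Set (EuclideanSpace ℂ (Fin n))) : Prop :=
  ∃ (I : Set (MvPolynomial (Fin n) ℂ)) (O : Set (EuclideanSpace ℂ (Fin n))), IsOpen O ∧
    U = {z | ∀ f ∈ I, MvPolynomial.eval (fun i => z i) f = 0} ∩ O

variable {V : Type} [NormedAddCommGroup V] [NormedSpace ℂ V]

/-- A connected bounded open set in which every point is an isolated fixed point of a holomorphic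
involution. -/
def IsBSD (D : Set V) : Prop :=
  IsOpen D ∧ IsConnected D ∧ Bornology.IsBounded D ∧
    ∀ x ∈ D, ∃ s : V → V, DifferentiableOn ℂ s D ∧ MapsTo s D D ∧ (∀ y ∈ D, s (s y) = y) ∧
      s x = x ∧ ∀ᶠ y in 𝓝[≠] x, s y ≠ y

variable (E : Type) [NormedAddCommGroup E] [NormedSpace ℂ E]

variable (V) in
/-- The complex manifold `X` (charts in `E`) has an injective holomorphic immersion `ι` into the
projective space of `V`: locally `ι y` is the line spanned by `s y`, where `s` has a complex
differential `L` at `y` and `L v` is not in that line for `v ≠ 0`. -/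
def EmbedsIn (X : Type) [TopologicalSpace X] [ChartedSpace E X] : Prop :=
  ∃ ι : X → Projectivization ℂ V, Function.Injective ι ∧
    ∀ x, ∃ W, IsOpen W ∧ x ∈ W ∧ ∃ s : X → V, ∀ y ∈ W, (ι y).submodule = ℂ ∙ s y ∧
      ∃ L : E →L[ℂ] V, HasMFDerivAt 𝓘(ℂ, E) 𝓘(ℂ, V) s y L ∧ ∀ v, L v ∈ ℂ ∙ s y → v = 0

/-- The complex manifold `M` (charts in `E`) is biholomorphic to the subset `S` (which may be
given with singular equations) of the complex manifold `P` (model `J`): a holomorphic map
`j : M → P` has image `S`, and near each point of the image a holomorphic map defined on an open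
subset of `P` inverts `j`. -/
def BiholOnto (M : Type) [TopologicalSpace M] [ChartedSpace E M] {H P : Type}
    [TopologicalSpace H] (J : ModelWithCorners ℂ V H) [TopologicalSpace P] [ChartedSpace H P]
    (S : Set P) : Prop :=
  ∃ j : M → P, MDifferentiable 𝓘(ℂ, E) J j ∧ range j = S ∧
    ∀ x, ∃ W, IsOpen W ∧ j x ∈ W ∧ ∃ k : P → M, MDifferentiableOn J 𝓘(ℂ, E) k W ∧
      ∀ y, j y ∈ W → k (j y) = y

/-- The complex manifold `M` (charts in `E`) is biholomorphic to the subset `U × B × F` of the
complex manifold `V × B × F`, where `V`, `B` are vector spaces and `F` has charts in `G`. -/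
def IsProduct (M : Type) [TopologicalSpace M] [ChartedSpace E M] (U : Set V)
    (B G : Type) [NormedAddCommGroup B] [NormedSpace ℂ B] [NormedAddCommGroup G] [NormedSpace ℂ G]
    (F : Type) [TopologicalSpace F] [ChartedSpace G F] : Prop :=
  BiholOnto E M (𝓘(ℂ, V).prod (𝓘(ℂ, B).prod 𝓘(ℂ, G))) (U ×ˢ (univ : Set (B × F)))

end Vale.Agent.N274X
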