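import Vale.Agent.P274.Bdl.B9

/-! The divergence theorem on a compact quotient of a manifold, in charts. -/

open Set Filter Topology MeasureTheory

namespace Vale.Agent.N274X

open Vale.Agent.P274 Vale.Agent.P274.V

variable {E M Γ : Type*} [NormedAddCommGroup E] [NormedSpace ℂ E] [FiniteDimensional ℂ E]
  [TopologicalSpace M] [Group Γ] [MulAction Γ M] [ContinuousConstSMul Γ M]

/-- The action of `γ`, read in two charts. -/
def tr (ψ ψ' : OpenPartialHomeomorph M E) (γ : Γ) : OpenPartialHomeomorph E E :=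
  ψ.symm.trans ((Homeomorph.smul γ).toOpenPartialHomeomorph.trans ψ')

omit [NormedSpace ℂ E] [FiniteDimensional ℂ E] in
theorem tr_apply (ψ ψ' : OpenPartialHomeomorph M E) (γ : Γ) (e : E) :
    tr ψ ψ' γ e = ψ' (γ • ψ.symm e) := rfl

omit [NormedSpace ℂ E] [FiniteDimensional ℂ E] in
theorem mem_tr_source {ψ ψ' : OpenPartialHomeomorph M E} {γ : Γ} {e : E} :
    e ∈ (tr ψ ψ' γ).source ↔ e ∈ ψ.target ∧ γ • ψ.symm e ∈ ψ'.source := by
  simp [tr]

omit [NormedSpace ℂ E] [FiniteDimensional ℂ E] in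
theorem mem_tr_target {ψ ψ' : OpenPartialHomeomorph M E} {γ : Γ} {e : E} :
    e ∈ (tr ψ ψ' γ).target ↔ e ∈ ψ'.target ∧ γ⁻¹ • ψ'.symm e ∈ ψ.source := by
  simp [tr]

theorem continuousOn_dv {D : Set E} (hD : IsOpen D) {ρ : E → ℝ} (hρ : ContDiffOn ℝ 1 ρ D)
    {Y : E → E} (hY : ContDiffOn ℝ 1 Y D) : ContinuousOn (fun x => dv ρ Y x) D := by
  have : FiniteDimensional ℝ E := FiniteDimensional.complexToReal E
  have h1 : ContinuousOn (fun x => fderiv ℝ ρ x) D := hρ.continuousOn_fderiv_of_isOpen hD le_rfl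
  have h2 : ContinuousOn (fun x => fderiv ℝ Y x) D := hY.continuousOn_fderiv_of_isOpen hD le_rfl
  have h4 : Continuous (fun A : E →L[ℝ] E => LinearMap.trace ℝ E A.toLinearMap) := by
    have : (fun A : E →L[ℝ] E => LinearMap.trace ℝ E A.toLinearMap)
        = ((LinearMap.trace ℝ E).comp (ContinuousLinearMap.coeLM ℝ) : (E →L[ℝ] E) →ₗ[ℝ] ℝ) := by
      rfl
    rw [this]
    exact LinearMap.continuous_of_finiteDimensional _
  exact (h1.clm_apply hY.continuousOn).add (hρ.continuousOn.mul (h4.comp_continuousOn h2))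

theorem dv_atlas [T2Space M] [LocallyCompactSpace M] (ψ : M → OpenPartialHomeomorph M E)
    (hψ : ∀ x, x ∈ (ψ x).source)
    (hpd : ∀ K : Set M, IsCompact K → {γ : Γ | ∃ x ∈ K, γ • x ∈ K}.Finite)
    (hco : ∃ K : Set M, IsCompact K ∧ ∀ x : M, ∃ γ : Γ, γ • x ∈ K)
    (hd : ∀ x y (γ : Γ), DifferentiableOn ℂ (tr (ψ x) (ψ y) γ) (tr (ψ x) (ψ y) γ).source)
    {ρ : M → E → ℝ} (hρ : ∀ x, ContDiffOn ℝ 1 (ρ x) (ψ x).target)
    (hρinv : ∀ x y (γ : Γ), ∀ e ∈ (tr (ψ x) (ψ y) γ).source,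
      ρ y (tr (ψ x) (ψ y) γ e) * ‖(fderiv ℂ (tr (ψ x) (ψ y) γ) e).det‖ ^ 2 = ρ x e)
    {V : M → E → E} (hV : ∀ x, ContDiffOn ℝ 1 (V x) (ψ x).target)
    (hVinv : ∀ x y (γ : Γ), ∀ e ∈ (tr (ψ x) (ψ y) γ).source,
      V y (tr (ψ x) (ψ y) γ e) = fderiv ℂ (tr (ψ x) (ψ y) γ) e (V x e))
    (hdiv : ∀ x, ∀ e ∈ (ψ x).target, 0 ≤ dv (ρ x) (V x) e) (x0 : M) :
    dv (ρ x0) (V x0) (ψ x0 x0) = 0 := by
  classical
  have : FiniteDimensional ℝ E := FiniteDimensional.complexToReal E
  have : CompleteSpace E := FiniteDimensional.complete ℂ E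
  let _ : MeasurableSpace E := borel E
  have : BorelSpace E := ⟨rfl⟩
  set μ : Measure E := MeasureTheory.Measure.addHaar with hμ
  choose b hb1 hb2 hb3 hb4 hb5 using fun x : M => exists_contDiff_tsupport_subset (n := 1)
    ((ψ x).open_target.mem_nhds ((ψ x).map_source (hψ x)))
  have hb0 : ∀ x e, 0 ≤ b x e := fun x e => (hb4 x ⟨e, rfl⟩).1
  have hb3' : ∀ x, ContDiff ℝ 1 (b x) := fun x => by exact_mod_cast hb3 x
  set β : M → M → ℝ := fun x => (ψ x).source.indicator fun m => b x (ψ x m) with hβ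
  set C : M → Set M := fun x => (ψ x).symm '' tsupport (b x) with hC
  have hCc : ∀ x, IsCompact (C x) := fun x =>
    (hb2 x).isCompact.image_of_continuousOn ((ψ x).continuousOn_symm.mono (hb1 x))
  have hCs : ∀ x, C x ⊆ (ψ x).source := by
    rintro x _ ⟨e, he, rfl⟩
    exact (ψ x).map_target (hb1 x he)
  have hβs : ∀ x, ∀ m ∈ (ψ x).source, β x m = b x (ψ x m) := fun x m hm => indicator_of_mem hm _
  have hβC : ∀ x m, m ∉ C x → β x m = 0 := by
    intro x m hm
    by_cases h : m ∈ (ψ x).source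
    · rw [hβs x m h]
      exact image_eq_zero_of_notMem_tsupport fun h1 => hm ⟨_, h1, (ψ x).left_inv h⟩
    · exact indicator_of_notMem h _
  have hβ0 : ∀ x m, 0 ≤ β x m := fun x m => indicator_nonneg (fun _ _ => hb0 _ _) m
  obtain ⟨K, hK, hKc⟩ := hco
  obtain ⟨t, -, ht⟩ := hK.elim_nhds_subcover (fun x => {m | 0 < β x m}) fun x _ => by
    have h1 : ContinuousAt (fun m => b x (ψ x m)) x :=
      (hb3' x).continuous.continuousAt.comp ((ψ x).continuousAt (hψ x))
    filter_upwards [(ψ x).open_source.mem_nhds (hψ x),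
      h1.eventually_const_lt (show 0 < b x (ψ x x) by rw [hb5]; exact one_pos)] with m h2 h3
    rwa [hβs x m h2]
  set I : Finset M := insert x0 t with hI
  obtain ⟨K2, hK2, hK12⟩ := exists_compact_superset (I.isCompact_biUnion fun x _ => hCc x)
  have hCK : ∀ x ∈ I, C x ⊆ interior K2 := fun x hx m hm => hK12 (mem_biUnion hx hm)
  set Φ : Finset Γ := (hpd K2 hK2).toFinset with hΦ
  have hΦm : ∀ γ, γ ∈ Φ ↔ ∃ x ∈ K2, γ • x ∈ K2 := fun γ => Set.Finite.mem_toFinset _
  have hΦi : ∀ γ, γ ∈ Φ → γ⁻¹ ∈ Φ := fun γ h => by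
    obtain ⟨x, h1, h2⟩ := (hΦm γ).1 h
    exact (hΦm _).2 ⟨_, h2, by rwa [inv_smul_smul]⟩
  set S : M → ℝ := fun m => ∑ᶠ γ : Γ, ∑ x ∈ I, β x (γ • m) with hS
  have hSinv : ∀ (δ : Γ) m, S (δ • m) = S m := by
    intro δ m
    simp only [hS, smul_smul]
    exact finsum_comp_equiv (Equiv.mulRight δ) (f := fun γ => ∑ x ∈ I, β x (γ • m))
  have hSf : ∀ m ∈ K2, S m = ∑ γ ∈ Φ, ∑ x ∈ I, β x (γ • m) := by
    intro m hm
    refine finsum_eq_sum_of_support_subset _ fun γ hγ => ?_
    obtain ⟨x, hx, h⟩ := Finset.exists_ne_zero_of_sum_ne_zero hγ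
    refine (hΦm γ).2 ⟨m, hm, interior_subset (hCK x hx ?_)⟩
    by_contra h1
    exact h (hβC x _ h1)
  have hSpos : ∀ m ∈ K2, 0 < S m := by
    intro m hm
    rw [hSf m hm]
    obtain ⟨γ, hγ⟩ := hKc m
    obtain ⟨x, hx, h⟩ := mem_iUnion₂.1 (ht hγ)
    have hxI : x ∈ I := Finset.mem_insert_of_mem hx
    have h' : 0 < β x (γ • m) := h
    refine Finset.sum_pos' (fun δ _ => Finset.sum_nonneg fun y _ => hβ0 _ _) ⟨γ, ?_, ?_⟩
    · refine (hΦm γ).2 ⟨m, hm, interior_subset (hCK x hxI ?_)⟩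
      by_contra h1
      exact h'.ne' (hβC x _ h1)
    · exact Finset.sum_pos' (fun y _ => hβ0 _ _) ⟨x, hxI, h'⟩
  -- regularity
  have htr : ∀ x y (γ : Γ), ∀ e ∈ (tr (ψ x) (ψ y) γ).source,
      ContDiffAt ℝ 1 (tr (ψ x) (ψ y) γ) e := by
    intro x y γ e he
    have ho := (tr (ψ x) (ψ y) γ).open_source
    have h2 := (P268.contDiffOn_of_differentiableOn ho (hd x y γ) 1).contDiffAt (ho.mem_nhds he)
    exact_mod_cast h2.restrict_scalars ℝ
  have hzero : ∀ x y (γ : Γ), ∀ e ∈ (ψ y).target, γ • (ψ y).symm e ∉ (ψ x).source →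
      ∀ᶠ e' in 𝓝 e, β x (γ • (ψ y).symm e') = 0 := by
    intro x y γ e he h
    have h1 : ContinuousAt (fun e' => γ • (ψ y).symm e') e :=
      ((ψ y).continuousAt_symm he).const_smul γ
    filter_upwards [h1.eventually ((hCc x).isClosed.isOpen_compl.mem_nhds fun h2 => h (hCs x h2))]
      with e' he' using hβC x _ he'
  have hβd : ∀ x y (γ : Γ), ∀ e ∈ (ψ y).target,
      ContDiffAt ℝ 1 (fun e' => β x (γ • (ψ y).symm e')) e := by
    intro x y γ e he
    by_cases h : γ • (ψ y).symm e ∈ (ψ x).source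
    · have h1 : e ∈ (tr (ψ y) (ψ x) γ).source := mem_tr_source.2 ⟨he, h⟩
      refine ((hb3' x).contDiffAt.comp e (htr y x γ e h1)).congr_of_eventuallyEq ?_
      filter_upwards [(tr (ψ y) (ψ x) γ).open_source.mem_nhds h1] with e' he'
      exact hβs x _ (mem_tr_source.1 he').2
    · exact contDiffAt_const.congr_of_eventuallyEq (hzero x y γ e he h)
  have hnear : ∀ y ∈ I, ∀ e ∈ tsupport (b y), ∀ᶠ e' in 𝓝 e, (ψ y).symm e' ∈ K2 := by
    intro y hy e he
    exact ((ψ y).continuousAt_symm (hb1 y he)).eventually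
      (mem_interior_iff_mem_nhds.1 (hCK y hy ⟨e, he, rfl⟩))
  have hSd : ∀ y ∈ I, ∀ e ∈ tsupport (b y), ContDiffAt ℝ 1 (fun e' => S ((ψ y).symm e')) e := by
    intro y hy e he
    refine (ContDiffAt.sum (s := Φ) fun γ _ => ContDiffAt.sum (s := I) fun x _ =>
      hβd x y γ e (hb1 y he)).congr_of_eventuallyEq ?_
    filter_upwards [hnear y hy e he] with e' he' using hSf _ he'
  set g : M → M → Γ → E → ℝ := fun x y γ e => β x (γ • (ψ y).symm e) / S ((ψ y).symm e) with hg
  have hgd : ∀ x, ∀ y ∈ I, ∀ γ, ∀ e ∈ tsupport (b y), ContDiffAt ℝ 1 (g x y γ) e :=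
    fun x y hy γ e he => (hβd x y γ e (hb1 y he)).div (hSd y hy e he)
      (hSpos _ (hnear y hy e he).self_of_nhds).ne'
  have hg1 : ∀ y ∈ I, ∀ e ∈ tsupport (b y), ∀ᶠ e' in 𝓝 e,
      ∑ γ ∈ Φ, ∑ x ∈ I, g x y γ e' = 1 := by
    intro y hy e he
    filter_upwards [hnear y hy e he] with e' he'
    simp only [hg, ← Finset.sum_div]
    rw [← hSf _ he', div_self (hSpos _ he').ne']
  set c : M → E → ℝ := fun x e => b x e / S ((ψ x).symm e) with hc
  have hcs : ∀ x, tsupport (c x) ⊆ tsupport (b x) := fun x => closure_mono fun e he h0 =>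
    he (by simp only [hc]; rw [h0, zero_div])
  have hc1 : ∀ x ∈ I, ContDiff ℝ 1 (c x) := fun x hx => contDiff_of_tsupport' fun e he =>
    (hb3' x).contDiffAt.div (hSd x hx e (hcs x he))
      (hSpos _ (hnear x hx e (hcs x he)).self_of_nhds).ne'
  have hcz : ∀ x e, e ∉ tsupport (b x) → c x e = 0 := fun x e he =>
    image_eq_zero_of_notMem_tsupport fun h => he (hcs x h)
  have hcz' : ∀ x e, e ∉ tsupport (b x) → fderiv ℝ (c x) e = 0 := fun x e he =>
    fderiv_of_notMem_tsupport ℝ fun h => he (hcs x h)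
  have hc0 : ∀ x ∈ I, ∀ e, 0 ≤ c x e := by
    intro x hx e
    by_cases he : e ∈ tsupport (b x)
    · exact div_nonneg (hb0 x e) (hSpos _ (hnear x hx e he).self_of_nhds).le
    · rw [hcz x e he]
  have hgc : ∀ x y (γ : Γ), ∀ e ∈ (tr (ψ x) (ψ y) γ).source,
      g y x γ e = c y (tr (ψ x) (ψ y) γ e) := by
    intro x y γ e he
    have h1 := (mem_tr_source.1 he).2
    simp only [hg, hc, tr_apply]
    rw [hβs y _ h1, (ψ y).left_inv h1, hSinv]
  -- the two families of integrands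
  set A : M → M → Γ → E → ℝ := fun x y γ e =>
    ρ x e * fderiv ℝ (c x) e (V x e) * g y x γ e with hA
  set A' : M → M → Γ → E → ℝ := fun y x γ e =>
    ρ y e * c y e * fderiv ℝ (g x y γ) e (V y e) with hA'
  have hρc : ∀ x, ContinuousOn (ρ x) (tsupport (b x)) := fun x =>
    (hρ x).continuousOn.mono (hb1 x)
  have hVc : ∀ x, ContinuousOn (V x) (tsupport (b x)) := fun x =>
    (hV x).continuousOn.mono (hb1 x)
  have hDc : ∀ x ∈ I, ContinuousOn (fun e => ρ x e * fderiv ℝ (c x) e (V x e))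
      (tsupport (b x)) := fun x hx => (hρc x).mul
    (((hc1 x hx).continuous_fderiv one_ne_zero).continuousOn.clm_apply (hVc x))
  have hAi : ∀ x ∈ I, ∀ y γ, Integrable (A x y γ) μ := fun x hx y γ =>
    fold_integrable μ ((hDc x hx).mul fun e he =>
      (hgd y x hx γ e he).continuousAt.continuousWithinAt) (hb2 x).isCompact Subset.rfl
      fun e he => by simp only [hA]; rw [hcz' x e he]; simp
  have hAi' : ∀ y ∈ I, ∀ x γ, Integrable (A' y x γ) μ := fun y hy x γ =>
    fold_integrable μ (((hρc y).mul (hc1 y hy).continuous.continuousOn).mul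
      (ContinuousOn.clm_apply (fun e he => ((hgd x y hy γ e he).continuousAt_fderiv
        one_ne_zero).continuousWithinAt) (hVc y))) (hb2 y).isCompact Subset.rfl
      fun e he => by simp only [hA']; rw [hcz y e he]; simp
  have hchange : ∀ x ∈ I, ∀ y (γ : Γ), ∫ e, A x y γ e ∂μ = ∫ e, A' y x γ⁻¹ e ∂μ := by
    intro x hx y γ
    set τ := tr (ψ x) (ψ y) γ with hτ
    have hτd : ∀ e ∈ τ.source, HasFDerivAt τ ((fderiv ℂ τ e).restrictScalars ℝ) e := fun e he =>
      ((hd x y γ).differentiableAt (τ.open_source.mem_nhds he)).hasFDerivAt.restrictScalars ℝ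
    rw [← setIntegral_eq_integral_of_forall_compl_eq_zero (s := τ.source) (f := A x y γ),
      ← setIntegral_eq_integral_of_forall_compl_eq_zero (s := τ.target) (f := A' y x γ⁻¹),
      integral_target_eq_integral_abs_det_fderiv_smul μ hτd]
    · refine setIntegral_congr_fun τ.open_source.measurableSet fun e he => ?_
      have h1 : τ e ∈ (tr (ψ y) (ψ x) γ⁻¹).source :=
        mem_tr_source.2 (mem_tr_target.1 (τ.map_source he))
      have h2 : g x y γ⁻¹ =ᶠ[𝓝 (τ e)] fun e' => c x (tr (ψ y) (ψ x) γ⁻¹ e') := by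
        filter_upwards [(tr (ψ y) (ψ x) γ⁻¹).open_source.mem_nhds h1] with e' he'
        exact hgc y x γ⁻¹ e' he'
      have h3 : DifferentiableAt ℝ (g x y γ⁻¹) (τ e) :=
        (((hc1 x hx).contDiffAt.comp _ (htr y x γ⁻¹ _ h1)).differentiableAt
          one_ne_zero).congr_of_eventuallyEq h2
      have h4 : (g x y γ⁻¹ ∘ τ) =ᶠ[𝓝 e] c x := by
        filter_upwards [τ.open_source.mem_nhds he] with e' he'
        rw [Function.comp_apply, hgc y x γ⁻¹ _
          (mem_tr_source.2 (mem_tr_target.1 (τ.map_source he')))]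
        exact congrArg (c x) (τ.left_inv he')
      have h5 := (h3.hasFDerivAt.comp e (hτd e he)).fderiv
      rw [h4.fderiv_eq] at h5
      simp only [hA, hA', smul_eq_mul]
      rw [fold_det, hgc x y γ e he, ← hρinv x y γ e he, hVinv x y γ e he, h5]
      simp only [ContinuousLinearMap.comp_apply, ContinuousLinearMap.coe_restrictScalars']
      ring
    · intro e he
      simp only [hA']
      by_cases h1 : e ∈ tsupport (b y)
      · have h2 : γ⁻¹ • (ψ y).symm e ∉ (ψ x).source := fun h =>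
          he (mem_tr_target.2 ⟨hb1 y h1, h⟩)
        have h3 : g x y γ⁻¹ =ᶠ[𝓝 e] fun _ => 0 := by
          filter_upwards [hzero x y γ⁻¹ e (hb1 y h1) h2] with e' he'
          simp only [hg]
          rw [he', zero_div]
        rw [h3.fderiv_eq]
        simp
      · rw [hcz y e h1]
        simp
    · intro e he
      simp only [hA]
      by_cases h1 : e ∈ tsupport (b x)
      · have h2 : γ • (ψ x).symm e ∉ (ψ y).source := fun h => he (mem_tr_source.2 ⟨hb1 x h1, h⟩)
        simp only [hg]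
        rw [hβC y _ fun h => h2 (hCs y h)]
        simp
      · rw [hcz' x e h1]
        simp
  have hsumA : ∀ x ∈ I, ∫ e, ρ x e * fderiv ℝ (c x) e (V x e) ∂μ =
      ∑ γ ∈ Φ, ∑ y ∈ I, ∫ e, A x y γ e ∂μ := by
    intro x hx
    rw [Finset.sum_congr rfl fun γ _ => (integral_finsetSum _ fun y _ => hAi x hx y γ).symm,
      ← integral_finsetSum _ fun γ _ => integrable_finsetSum _ fun y _ => hAi x hx y γ]
    refine integral_congr_ae (Eventually.of_forall fun e => ?_)
    simp only [hA, ← Finset.mul_sum]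
    by_cases he : e ∈ tsupport (b x)
    · rw [(hg1 x hx e he).self_of_nhds, mul_one]
    · rw [hcz' x e he]
      simp
  have hsumA' : ∀ y ∈ I, ∑ γ ∈ Φ, ∑ x ∈ I, ∫ e, A' y x γ e ∂μ = 0 := by
    intro y hy
    rw [Finset.sum_congr rfl fun γ _ => (integral_finsetSum _ fun x _ => hAi' y hy x γ).symm,
      ← integral_finsetSum _ fun γ _ => integrable_finsetSum _ fun x _ => hAi' y hy x γ]
    refine integral_eq_zero_of_ae (Eventually.of_forall fun e => ?_)
    simp only [hA', ← Finset.mul_sum, Pi.zero_apply]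
    by_cases he : e ∈ tsupport (b y)
    · have h1 := HasFDerivAt.fun_sum (u := Φ) fun γ _ => HasFDerivAt.fun_sum (u := I) fun x _ =>
        ((hgd x y hy γ e he).differentiableAt one_ne_zero).hasFDerivAt
      have h2 := congrArg (fun T : E →L[ℝ] ℝ => T (V y e)) (h1.unique
        ((hasFDerivAt_const (1 : ℝ) e).congr_of_eventuallyEq (hg1 y hy e he)))
      simp only [sum_apply, zero_apply] at h2
      rw [h2, mul_zero]
    · rw [hcz y e he]
      simp
  have htot : ∑ x ∈ I, ∫ e, ρ x e * fderiv ℝ (c x) e (V x e) ∂μ = 0 := by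
    rw [Finset.sum_congr rfl hsumA, Finset.sum_congr rfl fun x hx =>
      Finset.sum_congr rfl fun γ _ => Finset.sum_congr rfl fun y _ => hchange x hx y γ]
    have h1 : ∀ y ∈ I, ∑ γ ∈ Φ, ∑ x ∈ I, ∫ e, A' y x γ⁻¹ e ∂μ = 0 := by
      intro y hy
      rw [← hsumA' y hy]
      exact Finset.sum_bijective (fun γ => γ⁻¹) inv_involutive.bijective
        (fun γ => ⟨hΦi γ, fun h => by simpa using hΦi _ h⟩) fun γ _ => rfl
    rw [← Finset.sum_eq_zero h1, Finset.sum_comm, Finset.sum_congr rfl fun γ _ => Finset.sum_comm,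
      Finset.sum_comm]
  -- integration by parts in each chart
  have hdc : ∀ x ∈ I, Continuous fun e => c x e * dv (ρ x) (V x) e := fun x hx =>
    continuous_of_tsupport fun e he => (hc1 x hx).continuous.continuousAt.mul
      ((continuousOn_dv (ψ x).open_target (hρ x) (hV x)).continuousAt
        ((ψ x).open_target.mem_nhds (hb1 x (hcs x (tsupport_mul_subset_left he)))))
  have hdi : ∀ x ∈ I, Integrable (fun e => c x e * dv (ρ x) (V x) e) μ := fun x hx =>
    fold_integrable μ (hdc x hx).continuousOn (hb2 x).isCompact (subset_univ _)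
      fun e he => by rw [hcz x e he, zero_mul]
  have hd0 : ∀ x ∈ I, ∀ e, 0 ≤ c x e * dv (ρ x) (V x) e := by
    intro x hx e
    by_cases he : e ∈ tsupport (b x)
    · exact mul_nonneg (hc0 x hx e) (hdiv x e (hb1 x he))
    · rw [hcz x e he, zero_mul]
  have hparts : ∀ x ∈ I, ∫ e, c x e * dv (ρ x) (V x) e ∂μ +
      ∫ e, ρ x e * fderiv ℝ (c x) e (V x e) ∂μ = 0 := by
    intro x hx
    have hs : tsupport (fun e => c x e • V x e) ⊆ tsupport (b x) :=
      (tsupport_smul_subset_left _ _).trans (hcs x)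
    have h1 := integral_dv_eq_zero μ (ψ x).open_target (hρ x)
      ((hc1 x hx).contDiffOn.smul (hV x))
      ((hb2 x).isCompact.of_isClosed_subset (isClosed_tsupport _) hs) (hs.trans (hb1 x))
    rw [← integral_add (hdi x hx) (fold_integrable μ (hDc x hx) (hb2 x).isCompact Subset.rfl
      fun e he => by rw [hcz' x e he]; simp), ← h1,
      ← setIntegral_eq_integral_of_forall_compl_eq_zero (s := (ψ x).target)]
    · refine setIntegral_congr_fun (ψ x).open_target.measurableSet fun e he => ?_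
      exact (dv_smul ((hc1 x hx).differentiable one_ne_zero e)
        (((hV x).differentiableOn one_ne_zero).differentiableAt
          ((ψ x).open_target.mem_nhds he))).symm
    · intro e he
      have h2 : e ∉ tsupport (b x) := fun h => he (hb1 x h)
      rw [hcz x e h2, hcz' x e h2]
      simp
  have hfin : ∑ x ∈ I, ∫ e, c x e * dv (ρ x) (V x) e ∂μ = 0 := by
    have h1 := Finset.sum_eq_zero hparts
    rwa [Finset.sum_add_distrib, htot, add_zero] at h1
  have hx0 : x0 ∈ I := Finset.mem_insert_self _ _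
  have h1 := (Finset.sum_eq_zero_iff_of_nonneg fun x hx =>
    integral_nonneg (hd0 x hx)).1 hfin x0 hx0
  have h2 := (integral_eq_zero_iff_of_nonneg (hd0 x0 hx0) (hdi x0 hx0)).1 h1
  have h3 := congrFun ((Continuous.ae_eq_iff_eq μ (hdc x0 hx0) continuous_zero).1 h2) (ψ x0 x0)
  have h4 : ψ x0 x0 ∈ tsupport (b x0) := subset_tsupport _ (by simp [hb5])
  have h5 : 0 < c x0 (ψ x0 x0) :=
    div_pos (by rw [hb5]; exact one_pos) (hSpos _ (hnear x0 hx0 _ h4).self_of_nhds)
  exact (mul_eq_zero.1 h3).resolve_left h5.ne'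

end Vale.Agent.N274X
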