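import Vale.Agent.N274X.Lift

/-! The Fubini-Study form in homogeneous coordinates and its pull-backs. -/

open Set Filter Topology Complex ComplexConjugate

namespace Vale.Agent.N274X

section pull

variable {X Y : Type*} [NormedAddCommGroup X] [NormedSpace ℝ X] [NormedAddCommGroup Y]
  [NormedSpace ℝ Y]

/-- The pull-back of a two-form. -/
noncomputable def pull (Φ : Y → X) (ω : X → X →L[ℝ] X →L[ℝ] ℝ) (x : Y) : Y →L[ℝ] Y →L[ℝ] ℝ :=
  (ω (Φ x)).bilinearComp (fderiv ℝ Φ x) (fderiv ℝ Φ x)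

theorem pull_apply (Φ : Y → X) (ω : X → X →L[ℝ] X →L[ℝ] ℝ) (x u v : Y) :
    pull Φ ω x u v = ω (Φ x) (fderiv ℝ Φ x u) (fderiv ℝ Φ x v) := rfl

theorem Cf.pull [FiniteDimensional ℝ Y] {M : Set X} {M' : Set Y} (hM : IsOpen M)
    (hM' : IsOpen M') {ω : X → X →L[ℝ] X →L[ℝ] ℝ} (hω : Cf M ω) {Φ : Y → X}
    (h2 : ContDiffOn ℝ 2 Φ M') (hm : MapsTo Φ M' M) : Cf M' (pull Φ ω) := by
  have h1 : ContDiffOn ℝ 1 (fderiv ℝ Φ) M' := h2.fderiv_of_isOpen hM' (by norm_num)
  have h0 : ContDiffOn ℝ 1 (fun x => ω (Φ x)) M' := hω.smooth.comp (h2.of_le (by norm_num)) hm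
  have hs : ContDiffOn ℝ 1 (N274X.pull Φ ω) M' := by
    rw [contDiffOn_clm_apply]
    intro u
    rw [contDiffOn_clm_apply]
    intro v
    exact (h0.clm_apply (h1.clm_apply contDiffOn_const)).clm_apply
      (h1.clm_apply contDiffOn_const)
  refine ⟨hs, fun x hx u v => hω.alt _ (hm hx) _ _, fun x hx u v w => ?_⟩
  have hn := hM'.mem_nhds hx
  have hpd : HasFDerivAt (N274X.pull Φ ω) (fderiv ℝ (N274X.pull Φ ω) x) x :=
    ((hs.differentiableOn one_ne_zero).differentiableAt hn).hasFDerivAt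
  have hΦd : HasFDerivAt Φ (fderiv ℝ Φ x) x :=
    ((h2.differentiableOn two_ne_zero).differentiableAt hn).hasFDerivAt
  have hΦ2 : HasFDerivAt (fderiv ℝ Φ) (fderiv ℝ (fderiv ℝ Φ) x) x :=
    ((h1.differentiableOn one_ne_zero).differentiableAt hn).hasFDerivAt
  have hωd : HasFDerivAt ω (fderiv ℝ ω (Φ x)) (Φ x) :=
    ((hω.smooth.differentiableOn one_ne_zero).differentiableAt
      (hM.mem_nhds (hm hx))).hasFDerivAt
  have hsym : ∀ a b, fderiv ℝ (fderiv ℝ Φ) x a b = fderiv ℝ (fderiv ℝ Φ) x b a :=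
    (h2.contDiffAt hn).isSymmSndFDerivAt (by simp)
  have key : ∀ a b c, fderiv ℝ (N274X.pull Φ ω) x a b c =
      fderiv ℝ ω (Φ x) (fderiv ℝ Φ x a) (fderiv ℝ Φ x b) (fderiv ℝ Φ x c) +
      ω (Φ x) (fderiv ℝ (fderiv ℝ Φ) x a b) (fderiv ℝ Φ x c) +
      ω (Φ x) (fderiv ℝ Φ x b) (fderiv ℝ (fderiv ℝ Φ) x a c) := by
    intro a b c
    have e1 := (hpd.clm_apply (hasFDerivAt_const b x)).clm_apply (hasFDerivAt_const c x)
    have e0 : HasFDerivAt (fun y => ω (Φ y)) ((fderiv ℝ ω (Φ x)).comp (fderiv ℝ Φ x)) x :=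
      HasFDerivAt.comp (G := X →L[ℝ] X →L[ℝ] ℝ) (g := ω) x hωd hΦd
    have e2 := (e0.clm_apply (hΦ2.clm_apply (hasFDerivAt_const b x))).clm_apply
      (hΦ2.clm_apply (hasFDerivAt_const c x))
    have e3 := congrArg (fun T : Y →L[ℝ] ℝ => T a) (e1.unique e2)
    simp only [add_apply, ContinuousLinearMap.comp_apply, ContinuousLinearMap.flip_apply,
      zero_apply, map_zero, zero_add] at e3
    linarith
  rw [key, key, key]
  have c1 := hω.closed _ (hm hx) (fderiv ℝ Φ x u) (fderiv ℝ Φ x v) (fderiv ℝ Φ x w)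
  have a1 := hω.alt _ (hm hx) (fderiv ℝ (fderiv ℝ Φ) x u v) (fderiv ℝ Φ x w)
  have a2 := hω.alt _ (hm hx) (fderiv ℝ (fderiv ℝ Φ) x v w) (fderiv ℝ Φ x u)
  have a3 := hω.alt _ (hm hx) (fderiv ℝ (fderiv ℝ Φ) x w u) (fderiv ℝ Φ x v)
  have s1 := congrArg (ω (Φ x) (fderiv ℝ Φ x v)) (hsym u w)
  have s2 := congrArg (ω (Φ x) (fderiv ℝ Φ x w)) (hsym v u)
  have s3 := congrArg (ω (Φ x) (fderiv ℝ Φ x u)) (hsym w v)
  linarith

end pull

variable {H : Type*} [NormedAddCommGroup H] [InnerProductSpace ℂ H]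

/-- A real linear functional applied to the inner product. -/
noncomputable def ip (l : ℂ →L[ℝ] ℝ) : H →L[ℝ] H →L[ℝ] ℝ :=
  LinearMap.mkContinuous₂ (LinearMap.mk₂ ℝ (fun u v : H => l (inner ℂ u v))
    (fun _ _ _ => by rw [inner_add_left, map_add])
    (fun c u v => by
      rw [← Complex.coe_smul, inner_smul_left, conj_ofReal, ← real_smul, map_smul])
    (fun _ _ _ => by rw [inner_add_right, map_add])
    (fun c u v => by
      rw [← Complex.coe_smul, inner_smul_right, ← real_smul, map_smul])) ‖l‖ fun u v => by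
      rw [mul_assoc]
      exact (l.le_opNorm _).trans (mul_le_mul_of_nonneg_left (norm_inner_le_norm u v)
        (norm_nonneg _))

theorem ip_apply (l : ℂ →L[ℝ] ℝ) (u v : H) : ip l u v = l (inner ℂ u v) := rfl

theorem ip_re_symm (u v : H) : ip reCLM v u = ip reCLM u v := by
  rw [ip_apply, ip_apply, ← inner_conj_symm, reCLM_apply, reCLM_apply, conj_re]

theorem ip_im_symm (u v : H) : ip imCLM v u = - ip imCLM u v := by
  rw [ip_apply, ip_apply, ← inner_conj_symm, imCLM_apply, imCLM_apply, conj_im]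

/-- The Fubini-Study form. -/
noncomputable def fs (z : H) : H →L[ℝ] H →L[ℝ] ℝ :=
  (ip reCLM z z)⁻¹ • ip imCLM - ((ip reCLM z z)⁻¹ * (ip reCLM z z)⁻¹) •
    ((ip reCLM z).smulRight (ip imCLM z) - (ip imCLM z).smulRight (ip reCLM z))

theorem fs_apply (z u v : H) : fs z u v = (ip reCLM z z)⁻¹ * ip imCLM u v -
    (ip reCLM z z)⁻¹ * (ip reCLM z z)⁻¹ *
      (ip reCLM z u * ip imCLM z v - ip imCLM z u * ip reCLM z v) := by
  simp [fs]

theorem ip_self (z : H) : ip reCLM z z = ‖z‖ ^ 2 := by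
  rw [ip_apply, inner_self_eq_norm_sq_to_K]
  norm_cast

theorem fs_eq (z u v : H) : fs z u v = ((inner ℂ z z)⁻¹ * inner ℂ u v -
    (inner ℂ z z)⁻¹ * (inner ℂ z z)⁻¹ * (inner ℂ u z * inner ℂ z v)).im := by
  have h : (inner ℂ z z : ℂ)⁻¹ = (((‖z‖ ^ 2)⁻¹ : ℝ) : ℂ) := by
    rw [inner_self_eq_norm_sq_to_K]
    norm_cast
  rw [fs_apply, ip_self, h, ← ofReal_mul, sub_im, im_ofReal_mul, im_ofReal_mul,
    ← inner_conj_symm u z]
  simp only [ip_apply, reCLM_apply, imCLM_apply, mul_im, conj_re, conj_im]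
  ring

theorem fs_inv {z : H} (hz : z ≠ 0) {l : ℂ} (hl : l ≠ 0) (a b : ℂ) (u v : H) :
    fs (l • z) (l • u + a • z) (l • v + b • z) = fs z u v := by
  have h1 : (inner ℂ z z : ℂ) ≠ 0 := inner_self_ne_zero.2 hz
  have h2 : conj l ≠ 0 := (map_ne_zero _).2 hl
  rw [fs_eq, fs_eq]
  congr 1
  simp only [inner_add_left, inner_add_right, inner_smul_left, inner_smul_right]
  field_simp
  ring

theorem fs_nondeg {z : H} (hz : z ≠ 0) {u : H} (h : fs z u (I • u) = 0) : u ∈ ℂ ∙ z := by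
  have h1 : (inner ℂ z z : ℂ) ≠ 0 := inner_self_ne_zero.2 hz
  set a : ℂ := - (inner ℂ z u / inner ℂ z z) with ha
  have h2 := fs_inv hz one_ne_zero a (I * a) u (I • u)
  rw [h, one_smul, one_smul, one_smul, mul_smul, ← smul_add, fs_eq] at h2
  have h3 : inner ℂ z (u + a • z) = 0 := by
    rw [inner_add_right, inner_smul_right, ha]
    field_simp
    ring
  rw [inner_smul_right z, h3, inner_smul_right, inner_self_eq_norm_sq_to_K,
    inner_self_eq_norm_sq_to_K] at h2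
  have h4 : (‖z‖ ^ 2)⁻¹ * ‖u + a • z‖ ^ 2 = 0 := by
    rw [← h2]
    have h5 : ((‖z‖ : ℂ) ^ 2)⁻¹ * (I * (‖u + a • z‖ : ℂ) ^ 2) =
        (((‖z‖ ^ 2)⁻¹ * ‖u + a • z‖ ^ 2 : ℝ) : ℂ) * I := by
      push_cast
      ring
    simp only [mul_zero, sub_zero]
    exact ((congrArg im h5).trans (by simp only [mul_I_im, ofReal_re])).symm
  have h5 : u + a • z = 0 := by
    have h6 : (‖z‖ ^ 2)⁻¹ ≠ 0 := inv_ne_zero (pow_ne_zero _ (norm_ne_zero_iff.2 hz))
    simpa using (mul_eq_zero.1 h4).resolve_left h6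
  exact Submodule.mem_span_singleton.2 ⟨-a, by rw [neg_smul]; exact neg_eq_of_add_eq_zero_left h5⟩

theorem cf_fs [FiniteDimensional ℂ H] : Cf {z : H | z ≠ 0} fs := by
  have : FiniteDimensional ℝ H := FiniteDimensional.complexToReal H
  have hq : ∀ z ∈ {z : H | z ≠ 0}, ip reCLM z z ≠ 0 := fun z hz => by
    rw [ip_self]
    exact pow_ne_zero _ (norm_ne_zero_iff.2 hz)
  have hs : ContDiffOn ℝ 1 (fs (H := H)) {z : H | z ≠ 0} := by
    rw [contDiffOn_clm_apply]
    intro u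
    rw [contDiffOn_clm_apply]
    intro v
    simp only [fs_apply]
    have h1 : ContDiffOn ℝ 1 (fun z : H => (ip reCLM z z)⁻¹) {z : H | z ≠ 0} :=
      ((ip reCLM).contDiff.clm_apply contDiff_id).contDiffOn.inv hq
    have h2 : ∀ (l : ℂ →L[ℝ] ℝ) (u : H), ContDiffOn ℝ 1 (fun z : H => ip l z u) {z : H | z ≠ 0} :=
      fun l u => ((ip l).contDiff.clm_apply contDiff_const).contDiffOn
    exact (h1.mul contDiffOn_const).sub ((h1.mul h1).mul
      (((h2 _ _).mul (h2 _ _)).sub ((h2 _ _).mul (h2 _ _))))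
  refine ⟨hs, fun z _ u v => ?_, fun z hz u v w => ?_⟩
  · rw [fs_apply, fs_apply, ip_im_symm u v]
    ring
  have hd : HasFDerivAt (fs (H := H)) (fderiv ℝ fs z) z :=
    ((hs.differentiableOn one_ne_zero).differentiableAt (isOpen_ne.mem_nhds hz)).hasFDerivAt
  set q := (ip reCLM z z)⁻¹ with hqq
  have key : ∀ a b c : H, fderiv ℝ fs z a b c = - (2 * ip reCLM z a * q ^ 2) * ip imCLM b c +
      4 * ip reCLM z a * q ^ 3 * (ip reCLM z b * ip imCLM z c - ip imCLM z b * ip reCLM z c) -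
      q ^ 2 * (ip reCLM a b * ip imCLM z c + ip reCLM z b * ip imCLM a c -
        ip imCLM a b * ip reCLM z c - ip imCLM z b * ip reCLM a c) := by
    intro a b c
    have e1 := (hd.clm_apply (hasFDerivAt_const b z)).clm_apply (hasFDerivAt_const c z)
    have h0 := (ip reCLM (H := H)).hasFDerivAt.clm_apply (hasFDerivAt_id z)
    have h1 := HasDerivAt.comp_hasFDerivAt (h₂ := fun y : ℝ => y⁻¹)
      (f := fun y : H => ip reCLM y y) z (hasDerivAt_inv (hq z hz)) h0
    have h2 : ∀ (l : ℂ →L[ℝ] ℝ) (u : H), HasFDerivAt (fun z : H => ip l z u) ((ip l).flip u) z :=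
      fun l u => ((ip l).flip u).hasFDerivAt
    have e2 := (h1.mul_const (ip imCLM b c)).sub ((h1.mul h1).mul
      (((h2 reCLM b).mul (h2 imCLM c)).sub ((h2 imCLM b).mul (h2 reCLM c))))
    have e3 := congrArg (fun T : H →L[ℝ] ℝ => T a) (e1.unique (e2.congr_of_eventuallyEq
      (Eventually.of_forall fun y => fs_apply y b c)))
    simp only [add_apply, sub_apply, smul_apply, ContinuousLinearMap.comp_apply,
      ContinuousLinearMap.flip_apply, zero_apply, map_zero, zero_add, smul_eq_mul,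
      ContinuousLinearMap.id_apply, Function.comp_apply, Pi.mul_apply, Pi.sub_apply, id] at e3
    rw [e3, ip_re_symm z a, ← inv_pow, ← hqq]
    ring
  rw [key, key, key, ip_re_symm u v, ip_re_symm u w, ip_re_symm v w, ip_im_symm u v,
    ip_im_symm u w, ip_im_symm v w]
  ring

/-- Two lifts of the same map to projective space give the same form. -/
theorem fs_lift {Y : Type*} [NormedAddCommGroup Y] [NormedSpace ℝ Y] {s s' : Y → H} {e : Y}
    (hs : DifferentiableAt ℝ s e) (hs' : DifferentiableAt ℝ s' e) (h0 : s e ≠ 0)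
    (h : ∀ᶠ y in 𝓝 e, (ℂ ∙ s' y) = ℂ ∙ s y) (u v : Y) : pull s' fs e u v = pull s fs e u v := by
  set l : Y → ℂ := fun y => inner ℂ (s y) (s' y) / inner ℂ (s y) (s y) with hl
  have hld : DifferentiableAt ℝ l e := by
    have h1 : DifferentiableAt ℝ (fun y => (inner ℂ (s y) (s' y) : ℂ)) e := hs.inner ℂ hs'
    have h2 : DifferentiableAt ℝ (fun y => (inner ℂ (s y) (s y) : ℂ)) e := hs.inner ℂ hs
    have h3 : (inner ℂ (s e) (s e) : ℂ) ≠ 0 := inner_self_ne_zero.2 h0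
    simp only [hl, div_eq_mul_inv]
    exact h1.mul (h2.inv h3)
  have he : s' =ᶠ[𝓝 e] fun y => l y • s y := by
    filter_upwards [h, hs.continuousAt.eventually_ne h0] with y hy hy0
    obtain ⟨c, hc⟩ := Submodule.mem_span_singleton.1
      (hy ▸ Submodule.mem_span_singleton_self (R := ℂ) (s' y))
    have h1 : (inner ℂ (s y) (s y) : ℂ) ≠ 0 := inner_self_ne_zero.2 hy0
    simp only [hl]
    rw [← hc, inner_smul_right, mul_div_assoc, div_self h1, mul_one]
  have he0 : s' e = l e • s e := he.self_of_nhds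
  have hl0 : l e ≠ 0 := fun h1 => by
    have h2 := h.self_of_nhds
    rw [he0, h1, zero_smul, Submodule.span_zero_singleton, eq_comm,
      Submodule.span_singleton_eq_bot] at h2
    exact h0 h2
  have hd : ∀ u, fderiv ℝ s' e u = l e • fderiv ℝ s e u + fderiv ℝ l e u • s e := fun u => by
    rw [he.fderiv_eq, (hld.hasFDerivAt.fun_smul hs.hasFDerivAt).fderiv]
    rfl
  rw [pull_apply, pull_apply, hd, hd, he0, fs_inv h0 hl0]

end Vale.Agent.N274X
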