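import Vale.Agent.N274X.FS
import Vale.Agent.N274.Fin

/-! Products `U × ℂ^m × F` with a projective quotient. -/

open Set Filter Topology
open scoped Manifold

namespace Vale.Agent.N274X

open Vale.Agent.P274 Vale.Agent.P274.V Vale.Agent.P274.Z

section trace

variable {E : Type*} [NormedAddCommGroup E] [NormedSpace ℂ E]

theorem trace_zero [FiniteDimensional ℂ E] {D : Set E} {h : E → E →L[ℝ] E →L[ℝ] ℂ}
    {ρ : E → ℝ} (C : Ctx D h ρ)
    (hdz : ∀ Y : E → E, ContDiffOn ℝ 1 Y D →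
      (∀ g g', IsBiholo D D g g' → ∀ x ∈ D, Y (g x) = fderiv ℂ g x (Y x)) →
      (∀ x ∈ D, 0 ≤ dv ρ Y x) → ∀ x ∈ D, dv ρ Y x = 0)
    (X : Kil D h) : LinearMap.trace ℝ (Kil D h) (adK C X) = 0 := by
  have hfin : FiniteDimensional ℝ (Kil D h) := Kil_finiteDimensional C
  have hDo := C.isOpen
  obtain ⟨q, hq1, hqs, hqp, hqn⟩ := exists_natural_inner C
  set b := Module.finBasis ℝ (Kil D h) with hb
  set M : E → Matrix _ _ ℝ := fun x => Matrix.of fun i j => q x (b i) (b j) with hM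
  set c : Fin (Module.finrank ℝ (Kil D h)) → E → ℝ :=
    fun i x => dualCoord (M x) (fun j => mK C (b j)) i with hc
  set cc : E → Kil D h := fun x => ∑ i, c i x • b i with hcc
  have hspec : ∀ x ∈ D, ∀ Y, q x (cc x) Y = mK C Y := fun x hx Y =>
    dual_spec b (q x) (hqp x hx) (hqs x hx) (mK C) Y
  have hc1 : ∀ i, ContDiffOn ℝ 1 (c i) D := fun i =>
    contDiffOn_dualCoord (fun i j => hq1 (b i) (b j))
      (fun x hx => det_gram_ne_zero b (q x) (hqp x hx)) _ i
  have hcd : ∀ i, ∀ x ∈ D, DifferentiableAt ℝ (c i) x := fun i x hx =>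
    ((hc1 i).differentiableOn one_ne_zero x hx).differentiableAt (hDo.mem_nhds hx)
  -- equivariance
  have hequiv : ∀ g g', ∀ hg : IsBiholo D D g g', ∀ x ∈ D, cc (g x) = pushK C hg (cc x) := by
    intro g g' hg x hx
    refine dual_unique (q (g x)) (hqp _ (hg.mapsTo hx)) fun Y => ?_
    obtain ⟨W, rfl⟩ := (pushK C hg).surjective Y
    rw [hspec _ (hg.mapsTo hx), mK_pushK, hqn g g' hg x hx (cc x) W _ _ rfl rfl,
      hspec x hx]
  have hcoe : ∀ x y, (cc x : E → E) y = ∑ i, c i x • (b i : E → E) y := by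
    intro x y
    simp [hcc]
  -- infinitesimal version
  have hinf : ∀ x ∈ D, ∀ X : Kil D h,
      ∑ i, (fderiv ℝ (c i) x ((X : E → E) x)) • b i = adK C (cc x) X := by
    intro x hx X
    obtain ⟨F, hF⟩ := C.flow X.1 X.2
    apply Subtype.ext
    rw [adK_coe]
    funext y
    by_cases hy : y ∈ D
    · have h1 := hasDerivAt_push_flow hDo X.2.1 (cc x).2.1 hF hy
      have h2 : (fun t : ℝ => push D (F t) (F (-t)) (cc x : E → E) y) =
          fun t => ∑ i, c i (F t x) • (b i : E → E) y := by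
        funext t
        rw [← hcoe, hequiv _ _ (hF.biholo t) x hx]
        rfl
      rw [h2] at h1
      have h3 : HasDerivAt (fun t : ℝ => ∑ i, c i (F t x) • (b i : E → E) y)
          (∑ i, (fderiv ℝ (c i) x ((X : E → E) x)) • (b i : E → E) y) 0 := by
        refine HasDerivAt.fun_sum fun i _ => ?_
        have hd : HasDerivAt (fun t : ℝ => F t x) ((X : E → E) x) 0 := by
          have := hF.deriv x hx 0
          rwa [hF.zero x hx] at this
        have hfd : HasFDerivAt (c i) (fderiv ℝ (c i) x) (F 0 x) := by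
          rw [hF.zero x hx]
          exact (hcd i x hx).hasFDerivAt
        exact (hfd.comp_hasDerivAt (0 : ℝ) hd).smul_const _
      have h4 := h3.unique h1
      rw [lb_swap X.1 (cc x).1, Pi.neg_apply, neg_neg] at h4
      rw [← h4]
      simp
    · rw [lb_of_notMem (cc x).2.2.1 X.2.2.1 hy]
      exact (∑ i, (fderiv ℝ (c i) x ((X : E → E) x)) • b i).2.2.1 y hy
  -- the trace
  have htrace : ∀ x ∈ D, ∑ i, fderiv ℝ (c i) x ((b i : E → E) x) = q x (cc x) (cc x) := by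
    intro x hx
    rw [hspec x hx, mK_apply, LinearMap.trace_eq_matrix_trace ℝ b, Matrix.trace]
    refine Finset.sum_congr rfl fun i _ => ?_
    rw [Matrix.diag_apply, LinearMap.toMatrix_apply, ← hinf x hx (b i)]
    simp [Finsupp.single_apply]
  have hdiffC : ∀ i, ∀ x ∈ D, DifferentiableAt ℂ (b i : E → E) x := fun i => (b i).2.1
  have hdiff : ∀ i, ∀ x ∈ D, DifferentiableAt ℝ (b i : E → E) x := fun i x hx =>
    (hdiffC i x hx).restrictScalars ℝ
  set Y : E → E := fun x => ∑ i, c i x • (b i : E → E) x with hY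
  have hYd : ∀ x ∈ D, dv ρ Y x = ρ x * q x (cc x) (cc x) := by
    intro x hx
    rw [← htrace x hx]
    refine dv_comb (fun i => hcd i x hx) (fun i => hdiff i x hx) fun i => ?_
    obtain ⟨F, hF⟩ := C.flow (b i).1 (b i).2
    exact dv_eq_zero_of_flow hDo C.met (hdiffC i) hF x hx
  have hqnn : ∀ x ∈ D, 0 ≤ q x (cc x) (cc x) := by
    intro x hx
    by_cases h0 : cc x = 0
    · rw [h0]; simp
    · exact (hqp x hx _ h0).le
  have hzero := hdz Y
    (ContDiffOn.sum fun i _ => (hc1 i).smul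
      (((Vale.Agent.P268.contDiffOn_of_differentiableOn hDo
        (fun x hx => (hdiffC i x hx).differentiableWithinAt) 1).restrict_scalars ℝ)))
    (fun g g' hg x hx => by
      have h1 := congrArg (fun Z : Kil D h => (Z : E → E) (g x)) (hequiv _ _ hg x hx)
      simp only [pushK_coe] at h1
      rw [push_apply hg hx, hcoe, hcoe] at h1
      exact h1)
    (fun x hx => by
      rw [hYd x hx]
      exact mul_nonneg (C.met.pos_ρ x hx).le (hqnn x hx))
  obtain ⟨x, hx⟩ := C.ne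
  have h1 := hzero x hx
  rw [hYd x hx] at h1
  have h2 : q x (cc x) (cc x) = 0 := by
    rcases mul_eq_zero.1 h1 with h1 | h1
    · exact absurd h1 (C.met.pos_ρ x hx).ne'
    · exact h1
  have h3 : cc x = 0 := by
    by_contra h0
    exact absurd h2 (hqp x hx _ h0).ne'
  have h4 := hspec x hx X
  rw [h3, map_zero, LinearMap.zero_apply] at h4
  rw [← mK_apply, ← h4]

end trace

variable {EM E E' G H T ET : Type*} [NormedAddCommGroup EM] [NormedSpace ℂ EM]
  [NormedAddCommGroup E] [NormedSpace ℂ E] [NormedAddCommGroup E'] [NormedSpace ℂ E']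
  [NormedAddCommGroup G] [NormedSpace ℂ G] [NormedAddCommGroup H] [NormedSpace ℂ H]
  [NormedAddCommGroup ET] [NormedSpace ℂ ET] {HT : Type*} [TopologicalSpace HT]
  {IT : ModelWithCorners ℂ ET HT} [TopologicalSpace T] [ChartedSpace HT T]
  {M F : Type*} [TopologicalSpace M] [ChartedSpace EM M] [TopologicalSpace F] [ChartedSpace H F]

theorem holOn_md {f : E → E'} {U : Set E} (hf : HolOn f U) {a : T → E} {t : T}
    (ha : MDifferentiableAt IT 𝓘(ℂ, E) a t) (hU : ∀ᶠ s in 𝓝 t, a s ∈ U) :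
    MDifferentiableAt IT 𝓘(ℂ, E') (fun s => f (a s)) t := by
  obtain ⟨W, hW, hxW, g, hg, hfg⟩ := hf _ hU.self_of_nhds
  refine ((hg.differentiableAt (hW.mem_nhds hxW)).mdifferentiableAt.comp t
    ha).congr_of_eventuallyEq ?_
  filter_upwards [hU, ha.continuousAt.eventually (hW.mem_nhds hxW)] with s h1 h2
  exact hfg _ ⟨h1, h2⟩

variable (EM H) in
/-- `j` is a biholomorphic map from `M` onto `U × G × F`. -/
structure Emb (j : M → E × G × F) (U : Set E) : Prop where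
  hol : MDifferentiable 𝓘(ℂ, EM) (𝓘(ℂ, E).prod (𝓘(ℂ, G).prod 𝓘(ℂ, H))) j
  range : range j = U ×ˢ univ
  loc : ∀ x, ∃ W, IsOpen W ∧ j x ∈ W ∧ ∃ r : E × G × F → M,
    MDifferentiableOn (𝓘(ℂ, E).prod (𝓘(ℂ, G).prod 𝓘(ℂ, H))) 𝓘(ℂ, EM) r W ∧
    ∀ y, j y ∈ W → r (j y) = y

namespace Emb

variable {j : M → E × G × F} {U : Set E}

theorem inj (h : Emb EM H j U) : Function.Injective j := fun x y hxy => by
  obtain ⟨W, -, hx, r, -, hr⟩ := h.loc x
  rw [← hr x hx, hxy, hr y (hxy ▸ hx)]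

theorem mem (h : Emb EM H j U) (x : M) : (j x).1 ∈ U := (h.range ▸ mem_range_self x :
  j x ∈ U ×ˢ (univ : Set (G × F))).1

variable [Nonempty M]

theorem right (h : Emb EM H j U) {y : E × G × F} (hy : y.1 ∈ U) : j (j.invFun y) = y :=
  Function.invFun_eq (h.range ▸ ⟨hy, mem_univ _⟩ : y ∈ Set.range j)

theorem left (h : Emb EM H j U) (x : M) : j.invFun (j x) = x := Function.leftInverse_invFun h.inj x

theorem inv_md (h : Emb EM H j U) {a : T → E × G × F} {t : T}
    (ha : MDifferentiableAt IT (𝓘(ℂ, E).prod (𝓘(ℂ, G).prod 𝓘(ℂ, H))) a t)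
    (hU : ∀ᶠ s in 𝓝 t, (a s).1 ∈ U) :
    MDifferentiableAt IT 𝓘(ℂ, EM) (fun s => j.invFun (a s)) t := by
  obtain ⟨W, hW, hx, r, hr, hrj⟩ := h.loc (j.invFun (a t))
  rw [h.right hU.self_of_nhds] at hx
  refine (((hr _ hx).mdifferentiableAt (hW.mem_nhds hx)).comp t ha).congr_of_eventuallyEq ?_
  filter_upwards [hU, ha.continuousAt.eventually (hW.mem_nhds hx)] with s h1 h2
  have h3 := hrj (j.invFun (a s)) (by rwa [h.right h1])
  rw [h.right h1] at h3
  exact h3.symm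

/-- The map induced on the first factor. -/
noncomputable def base (j : M → E × G × F) (y0 : F) (g : M → M) (u : E) : E :=
  (j (g (j.invFun (u, 0, y0)))).1

theorem descend [IsManifold 𝓘(ℂ, H) 1 F] [CompactSpace F] [PreconnectedSpace F]
    (h : Emb EM H j U) (hb : Bornology.IsBounded U) (y0 : F) {g : M → M}
    (hg : MDifferentiable 𝓘(ℂ, EM) 𝓘(ℂ, EM) g) (x : M) : (j (g x)).1 = base j y0 g (j x).1 := by
  have h1 : MDifferentiable 𝓘(ℂ, H) 𝓘(ℂ, E)
      fun y : F => (j (g (j.invFun ((j x).1, (j x).2.1, y)))).1 := fun y =>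
    mdifferentiableAt_fst.comp y ((h.hol _).comp y ((hg _).comp y (h.inv_md
      (mdifferentiableAt_const.prodMk (mdifferentiableAt_const.prodMk mdifferentiableAt_id))
      (Eventually.of_forall fun _ => h.mem x))))
  have h2 : Differentiable ℂ fun z : G => (j (g (j.invFun ((j x).1, z, y0)))).1 := fun z =>
    MDifferentiableAt.differentiableAt (mdifferentiableAt_fst.comp z ((h.hol _).comp z
      ((hg _).comp z (h.inv_md (IT := 𝓘(ℂ, G))
      (mdifferentiableAt_const.prodMk (mdifferentiableAt_id.prodMk mdifferentiableAt_const))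
      (Eventually.of_forall fun _ => h.mem x)))))
  have h3 := h1.apply_eq_of_compactSpace (j x).2.2 y0
  have h4 := h2.apply_eq_apply_of_bounded (hb.subset (by
    rintro _ ⟨z, rfl⟩; exact h.mem _)) (j x).2.1 0
  rw [base, ← h4, ← h3]
  exact congrArg (fun m => (j (g m)).1) (h.left x).symm

theorem holOn_base (h : Emb EM H j U) (y0 : F) {g : M → M}
    (hg : MDifferentiable 𝓘(ℂ, EM) 𝓘(ℂ, EM) g) : HolOn (base j y0 g) U := by
  intro u hu
  obtain ⟨W, hW, hx, r, hr, hrj⟩ := h.loc (j.invFun (u, 0, y0))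
  rw [h.right hu] at hx
  refine ⟨(fun v : E => (v, (0 : G), y0)) ⁻¹' W, hW.preimage (by fun_prop), hx,
    fun v => (j (g (r (v, 0, y0)))).1, fun v hv => ?_, fun v hv => ?_⟩
  · exact (MDifferentiableAt.differentiableAt (mdifferentiableAt_fst.comp v ((h.hol _).comp v
      ((hg _).comp v (((hr _ hv).mdifferentiableAt (hW.mem_nhds hv)).comp v
      (mdifferentiableAt_id.prodMk mdifferentiableAt_const)))))).differentiableWithinAt
  · have h3 := hrj (j.invFun (v, 0, y0)) (by rw [h.right hv.1]; exact hv.2)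
    rw [h.right hv.1] at h3
    simp only [base]
    rw [h3]

theorem bihol_base [IsManifold 𝓘(ℂ, H) 1 F] [CompactSpace F] [PreconnectedSpace F]
    (h : Emb EM H j U) (hb : Bornology.IsBounded U) (y0 : F) {Γ : Type*} [Group Γ]
    [MulAction Γ M] (hΓ : ∀ γ : Γ, MDifferentiable 𝓘(ℂ, EM) 𝓘(ℂ, EM) fun x : M => γ • x) (γ : Γ) :
    IsBihol U U (base j y0 fun x => γ • x) (base j y0 fun x => γ⁻¹ • x) := by
  refine ⟨h.holOn_base y0 (hΓ γ), h.holOn_base y0 (hΓ γ⁻¹), fun _ _ => h.mem _,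
    fun _ _ => h.mem _, fun u hu => ?_, fun u hu => ?_⟩
  · rw [base.eq_1 j y0 (fun x => γ • x), ← h.descend hb y0 (hΓ γ⁻¹), inv_smul_smul, h.right hu]
  · rw [base.eq_1 j y0 (fun x => γ⁻¹ • x), ← h.descend hb y0 (hΓ γ), smul_inv_smul, h.right hu]

theorem cocompact [IsManifold 𝓘(ℂ, H) 1 F] [CompactSpace F] [PreconnectedSpace F]
    (h : Emb EM H j U) (hb : Bornology.IsBounded U) (y0 : F) {Γ : Type*} [Group Γ]
    [MulAction Γ M] (hΓ : ∀ γ : Γ, MDifferentiable 𝓘(ℂ, EM) 𝓘(ℂ, EM) fun x : M => γ • x)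
    (hco : ∃ K : Set M, IsCompact K ∧ ∀ x : M, ∃ γ : Γ, γ • x ∈ K) :
    ∃ K, IsCompact K ∧ K ⊆ U ∧ CocompactHol U K := by
  obtain ⟨K, hK, hKc⟩ := hco
  refine ⟨(fun x => (j x).1) '' K, hK.image h.hol.continuous.fst, ?_, fun u hu => ?_⟩
  · rintro _ ⟨x, -, rfl⟩
    exact h.mem x
  · obtain ⟨γ, hγ⟩ := hKc (j.invFun (u, 0, y0))
    exact ⟨_, _, (h.bihol_base hb y0 hΓ γ).symm, _, hγ, rfl⟩

omit [Nonempty M] in
theorem md_to (h : Emb EM H j U) {f : E → E'} (hf : HolOn f U) (x : M) :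
    MDifferentiableAt 𝓘(ℂ, EM) 𝓘(ℂ, E') (fun x => f (j x).1) x :=
  holOn_md hf (mdifferentiableAt_fst.comp x (h.hol x)) (Eventually.of_forall h.mem)

theorem md_inv (h : Emb EM H j U) {V : Set E'} {f : E → E'} {g : E' → E} (hV : IsOpen V)
    (hfg : IsBihol U V f g) {y : E' × G × F} (hy : y.1 ∈ V) :
    MDifferentiableAt (𝓘(ℂ, E').prod (𝓘(ℂ, G).prod 𝓘(ℂ, H))) 𝓘(ℂ, EM)
      (fun y : E' × G × F => j.invFun (g y.1, y.2)) y := by
  have h1 : ∀ᶠ s : E' × G × F in 𝓝 y, s.1 ∈ V := continuousAt_fst.eventually (hV.mem_nhds hy)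
  exact h.inv_md ((holOn_md hfg.hol_inv mdifferentiableAt_fst h1).prodMk mdifferentiableAt_snd)
    (h1.mono fun s hs => hfg.mapsTo_inv hs)

/-- The biholomorphic map onto `V × G × F`. -/
noncomputable def homeo (h : Emb EM H j U) {V : Set E'} {f : E → E'} {g : E' → E} (hV : IsOpen V)
    (hfg : IsBihol U V f g) : OpenPartialHomeomorph M (E' × G × F) where
  toFun x := (f (j x).1, (j x).2)
  invFun y := j.invFun (g y.1, y.2)
  source := univ
  target := V ×ˢ univ
  map_source' x _ := ⟨hfg.mapsTo (h.mem x), mem_univ _⟩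
  map_target' _ _ := mem_univ _
  left_inv' x _ := by
    rw [hfg.left_inv _ (h.mem x)]
    exact h.left x
  right_inv' y hy := by
    rw [h.right (hfg.mapsTo_inv hy.1), hfg.right_inv _ hy.1]
  open_source := isOpen_univ
  open_target := hV.prod isOpen_univ
  continuousOn_toFun x _ := ((h.md_to hfg.hol x).continuousAt.prodMk
    (h.hol x).continuousAt.snd).continuousWithinAt
  continuousOn_invFun _ hy := (h.md_inv hV hfg hy.1).continuousAt.continuousWithinAt

end Emb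

/-- The divergence theorem on a domain biholomorphic to the bounded factor. -/
theorem dz_of_proj [FiniteDimensional ℂ E'] [FiniteDimensional ℂ G] [FiniteDimensional ℂ H]
    [IsManifold 𝓘(ℂ, H) 1 F] [CompactSpace F] [PreconnectedSpace F] [Nonempty M] [T2Space M]
    [LocallyCompactSpace M] {j : M → E × G × F} {U : Set E} (h : Emb EM H j U)
    (hb : Bornology.IsBounded U) {S : Set E'} (hS : IsOpen S) {f : E → E'} {g : E' → E}
    (hfg : IsBihol U S f g) {Γ : Type*} [Group Γ] [MulAction Γ M]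
    (hΓ : ∀ γ : Γ, MDifferentiable 𝓘(ℂ, EM) 𝓘(ℂ, EM) fun x : M => γ • x)
    (hpd : ∀ K : Set M, IsCompact K → {γ : Γ | ∃ x ∈ K, γ • x ∈ K}.Finite)
    (hco : ∃ K : Set M, IsCompact K ∧ ∀ x : M, ∃ γ : Γ, γ • x ∈ K)
    {P : Type*} [NormedAddCommGroup P] [InnerProductSpace ℂ P] [FiniteDimensional ℂ P]
    {ι : M → Submodule ℂ P} (hι : ∀ (γ : Γ) x, ι (γ • x) = ι x)
    (hs : ∀ x, ∃ W, IsOpen W ∧ x ∈ W ∧ ∃ s : M → P, MDifferentiableOn 𝓘(ℂ, EM) 𝓘(ℂ, P) s W ∧
      ∀ y ∈ W, s y ≠ 0 ∧ ι y = ℂ ∙ s y ∧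
        ∀ v : EM, (mfderiv 𝓘(ℂ, EM) 𝓘(ℂ, P) s y v : P) ∈ ℂ ∙ s y → v = 0)
    {hm : E' → E' →L[ℝ] E' →L[ℝ] ℂ} {ρ : E' → ℝ} (hρ : InvMetric S hm ρ) (Y : E' → E')
    (hY : ContDiffOn ℝ 1 Y S)
    (hYinv : ∀ g g', IsBiholo S S g g' → ∀ x ∈ S, Y (g x) = fderiv ℂ g x (Y x))
    (hdiv : ∀ x ∈ S, 0 ≤ dv ρ Y x) : ∀ x ∈ S, dv ρ Y x = 0 := by
  have : ContinuousConstSMul Γ M := ⟨fun γ => (hΓ γ).continuous⟩
  have : CompleteSpace P := FiniteDimensional.complete ℂ P
  have : FiniteDimensional ℝ (E' × G × H) := FiniteDimensional.complexToReal _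
  choose W hW hxW s hsd hsW using hs
  obtain ⟨x1⟩ : Nonempty M := inferInstance
  set y0 := (j x1).2.2 with hy0
  set ψ : M → OpenPartialHomeomorph M (E' × G × H) := fun x =>
    ((h.homeo hS hfg).trans ((OpenPartialHomeomorph.refl E').prod
      ((OpenPartialHomeomorph.refl G).prod (chartAt H (j x).2.2)))).restrOpen (W x) (hW x) with hψ
  have hψa : ∀ x m, ψ x m = (f (j m).1, (j m).2.1, chartAt H (j x).2.2 (j m).2.2) :=
    fun x m => rfl
  have hψi : ∀ x e, (ψ x).symm e = j.invFun (g e.1, e.2.1, (chartAt H (j x).2.2).symm e.2.2) :=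
    fun x e => rfl
  have hψs : ∀ x m, m ∈ (ψ x).source ↔ (j m).2.2 ∈ (chartAt H (j x).2.2).source ∧ m ∈ W x := by
    intro x m
    simp [hψ, Emb.homeo]
  have hψt : ∀ x, ∀ e ∈ (ψ x).target, e.1 ∈ S ∧ e.2.2 ∈ (chartAt H (j x).2.2).target := by
    intro x e he
    rw [← (ψ x).right_inv he, hψa]
    exact ⟨hfg.mapsTo (h.mem _), (chartAt H _).map_source ((hψs x _).1 ((ψ x).map_target he)).1⟩
  have hd1 : ∀ x, ∀ m ∈ (ψ x).source, MDifferentiableAt 𝓘(ℂ, EM) 𝓘(ℂ, E' × G × H) (ψ x) m := by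
    intro x m hm
    have h1 := mdifferentiableAt_snd.comp m (h.hol m)
    exact (h.md_to hfg.hol m).prodMk_space ((mdifferentiableAt_fst.comp m h1).prodMk_space
      ((mdifferentiableAt_atlas (chart_mem_atlas H _) ((hψs x m).1 hm).1).comp m
        (mdifferentiableAt_snd.comp m h1)))
  have hd2 : ∀ x, ∀ e ∈ (ψ x).target,
      MDifferentiableAt 𝓘(ℂ, E' × G × H) 𝓘(ℂ, EM) (ψ x).symm e := by
    intro x e he
    refine (h.md_inv hS hfg (y := (e.1, e.2.1, (chartAt H (j x).2.2).symm e.2.2))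
      (hψt x e he).1).comp e (f := fun e : E' × G × H =>
        (e.1, e.2.1, (chartAt H (j x).2.2).symm e.2.2)) ?_
    exact differentiableAt_fst.mdifferentiableAt.prodMk
      (differentiableAt_snd.fst.mdifferentiableAt.prodMk
        ((mdifferentiableAt_atlas_symm (chart_mem_atlas H _) (hψt x e he).2).comp e
          differentiableAt_snd.snd.mdifferentiableAt))
  have hd : ∀ x y (γ : Γ), ∀ e ∈ (tr (ψ x) (ψ y) γ).source,
      DifferentiableAt ℂ (tr (ψ x) (ψ y) γ) e := fun x y γ e he => by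
    have h1 := (hΓ γ _).comp e (hd2 x e (mem_tr_source.1 he).1)
    have h2 := MDifferentiableAt.comp (g := ψ y) e (hd1 y _ (mem_tr_source.1 he).2) h1
    exact h2.differentiableAt
  have hWt : ∀ x, ∀ e ∈ (ψ x).target, (ψ x).symm e ∈ W x := fun x e he =>
    ((hψs x _).1 ((ψ x).map_target he)).2
  set σ : M → E' × G × H → P := fun x => s x ∘ (ψ x).symm with hσ
  have hsd' : ∀ x, ∀ e ∈ (ψ x).target, MDifferentiableAt 𝓘(ℂ, EM) 𝓘(ℂ, P) (s x) ((ψ x).symm e) :=
    fun x e he => (hsd x _ (hWt x e he)).mdifferentiableAt ((hW x).mem_nhds (hWt x e he))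
  have hσd : ∀ x, ∀ e ∈ (ψ x).target, DifferentiableAt ℂ (σ x) e := fun x e he =>
    MDifferentiableAt.differentiableAt ((hsd' x e he).comp e (hd2 x e he))
  have hσr : ∀ x, ∀ e ∈ (ψ x).target, ∀ u, fderiv ℝ (σ x) e u = fderiv ℂ (σ x) e u :=
    fun x e he u => by
      rw [(hσd x e he).fderiv_restrictScalars ℝ]
      rfl
  have hσ0 : ∀ x, ∀ e ∈ (ψ x).target, σ x e ≠ 0 := fun x e he => (hsW x _ (hWt x e he)).1
  have hω : ∀ x, Kf (ψ x).target (pull (σ x) fs) := by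
    intro x
    refine ⟨cf_fs.pull isOpen_ne (ψ x).open_target ((P268.contDiffOn_of_differentiableOn
      (ψ x).open_target (fun e he => (hσd x e he).differentiableWithinAt) 2).restrict_scalars ℝ)
      (hσ0 x), fun e he v hv => ?_⟩
    have h1 := hv (Complex.I • v)
    have h2 : ((0 : E'), Complex.I • v) = Complex.I • ((0 : E'), v) := by simp
    rw [pull_apply, hσr x e he, hσr x e he, h2, map_smul] at h1
    have h3 := fs_nondeg (hσ0 x e he) h1
    rw [← mfderiv_eq_fderiv, mfderiv_comp e (hsd' x e he) (hd2 x e he)] at h3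
    have h4 := (hsW x _ (hWt x e he)).2.2 _ h3
    have h5 : ψ x ∘ (ψ x).symm =ᶠ[𝓝 e] id := (ψ x).eventually_right_inverse he
    have h6 := h5.mfderiv_eq (I := 𝓘(ℂ, E' × G × H)) (I' := 𝓘(ℂ, E' × G × H))
    rw [mfderiv_comp e (hd1 x _ ((ψ x).map_target he)) (hd2 x e he), mfderiv_id] at h6
    have h7 := congrArg (fun A : E' × G × H →L[ℂ] E' × G × H => A (0, v)) h6
    have h8 : ((0 : E'), v) = 0 := h7.symm.trans ((congrArg _ h4).trans
      (map_zero (mfderiv 𝓘(ℂ, EM) 𝓘(ℂ, E' × G × H) (ψ x) ((ψ x).symm e))))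
    exact congrArg Prod.snd h8
  have hbi : ∀ γ : Γ, IsBiholo S S (fun y => f (Emb.base j y0 (fun x => γ • x) (g y)))
      (fun y => f (Emb.base j y0 (fun x => γ⁻¹ • x) (g y))) := fun γ =>
    (isBihol_iff hS hS).1 ((hfg.symm.trans (h.bihol_base hb y0 hΓ γ)).trans hfg)
  intro y hy
  have key := lift_dv ψ (fun x => (hψs x x).2 ⟨mem_chart_source H _, hxW x⟩) hpd hco
    (fun x y γ e he => (hd x y γ e he).differentiableWithinAt) hS (fun x e he => (hψt x e he).1)
    hω (b := fun γ y => f (Emb.base j y0 (fun x => γ • x) (g y))) (fun x y γ e he => ?_)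
    (fun γ y hy => (hbi γ).diffOn.differentiableAt (hS.mem_nhds hy)) (fun x y γ e he u v => ?_)
    (hρ.smooth_ρ.of_le (by exact_mod_cast le_top))
    (fun γ y hy => hρ.inv_ρ _ _ (hbi γ) y hy) hY (fun γ y hy => hYinv _ _ (hbi γ) y hy) hdiv
    (j.invFun (g y, 0, y0))
  · rwa [hψa, h.right (hfg.mapsTo_inv hy), hfg.right_inv y hy] at key
  · rw [tr_apply, hψa, h.descend hb y0 (hΓ γ), hψi,
      h.right (hfg.mapsTo_inv (hψt x e (mem_tr_source.1 he).1).1)]
  · set τ := tr (ψ x) (ψ y) γ with hτ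
    have he1 := (mem_tr_source.1 he).1
    have he2 : τ e ∈ (ψ y).target := (mem_tr_target.1 (τ.map_source he)).1
    have h1 := (hσd y _ he2).comp e (hd x y γ e he)
    rw [← fs_lift ((hσd x e he1).restrictScalars ℝ) (h1.restrictScalars ℝ) (hσ0 x e he1) ?_ u v,
      pull_apply, pull_apply, hσr y _ he2, hσr y _ he2, h1.fderiv_restrictScalars ℝ,
      fderiv_comp e (hσd y _ he2) (hd x y γ e he)]
    · rfl
    · filter_upwards [τ.open_source.mem_nhds he] with e' he'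
      obtain ⟨h2, h3⟩ := mem_tr_source.1 he'
      change (ℂ ∙ s y ((ψ y).symm (ψ y (γ • (ψ x).symm e')))) = ℂ ∙ s x ((ψ x).symm e')
      rw [(ψ y).left_inv h3, ← (hsW y _ ((hψs y _).1 h3).2).2.1, hι,
        (hsW x _ (hWt x e' h2)).2.1]

/-- A bounded domain biholomorphic to a Siegel domain is symmetric as soon as the divergence
theorem holds for invariant vector fields. -/
theorem symAt_of_dz [FiniteDimensional ℂ E] {U K : Set E} (hU : IsOpen U) (hUc : IsPreconnected U)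
    (hb : Bornology.IsBounded U) (hK : IsCompact K) (hKU : K ⊆ U) (hco : CocompactAut U K)
    {k : ℕ} {D : E →L[ℝ] (Fin k → ℝ)}
    {B : E →L[ℝ] E →L[ℝ] (Fin k → ℝ)} {σ : (Fin k → ℂ) →L[ℂ] E} (hσ : ∀ w, Lam D (σ w) = w)
    {Ω : Set (Fin k → ℝ)} (hΩ : IsOpen Ω) (hcone : ∀ t : ℝ, 0 < t → ∀ y ∈ Ω, t • y ∈ Ω)
    (hUS : Biholomorphic U {y : E | D y + Lev B (prj D σ y) ∈ Ω})
    (hdz : ∀ (S : Set ((Lam D).ker × (Fin k → ℂ))) f g, IsOpen S → IsBiholo U S f g →
      ∀ h ρ, InvMetric S h ρ → ∀ Y, ContDiffOn ℝ 1 Y S →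
      (∀ g g', IsBiholo S S g g' → ∀ x ∈ S, Y (g x) = fderiv ℂ g x (Y x)) →
      (∀ x ∈ S, 0 ≤ dv ρ Y x) → ∀ x ∈ S, dv ρ Y x = 0) :
    ∀ p ∈ U, SymAt U p := by
  obtain ⟨F, L, hF, hL⟩ := exists_linear_siegel B hσ Ω
  obtain ⟨f, g, hfg⟩ := hUS
  have hLb : IsBiholo {y : E | D y + Lev B (prj D σ y) ∈ Ω} (Sg F Ω) L L.symm :=
    { diffOn := L.differentiable.differentiableOn
      diffOn_inv := L.symm.differentiable.differentiableOn
      mapsTo := fun y hy => (hL y).1 hy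
      mapsTo_inv := fun y hy => (hL _).2 (by simpa using hy)
      left_inv := fun y _ => by simp
      right_inv := fun y _ => by simp }
  have hφ := hfg.trans hLb
  have hD : IsOpen (Sg F Ω) := isOpen_Sg F hΩ
  have himg : Sg F Ω = (L ∘ f) '' U := by
    ext y
    exact ⟨fun hy => ⟨_, hφ.mapsTo_inv hy, hφ.right_inv y hy⟩, by
      rintro ⟨x, hx, rfl⟩; exact hφ.mapsTo hx⟩
  have hc' : IsPreconnected (Sg F Ω) := by
    rw [himg]
    exact hUc.image _ hφ.diffOn.continuousOn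
  have hb' : ∃ U : Set ((Lam D).ker × (Fin k → ℂ)), IsOpen U ∧ Bornology.IsBounded U ∧
      Biholomorphic (Sg F Ω) U := by
    refine ⟨L '' U, L.toHomeomorph.isOpenMap U hU, ?_, ?_⟩
    · exact (L : E →L[ℂ] (Lam D).ker × (Fin k → ℂ)).lipschitz.isBounded_image hb
    · have h1 : IsBiholo U (L '' U) L L.symm :=
        { diffOn := L.differentiable.differentiableOn
          diffOn_inv := L.symm.differentiable.differentiableOn
          mapsTo := mapsTo_image _ _
          mapsTo_inv := by rintro _ ⟨x, hx, rfl⟩; simpa using hx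
          left_inv := fun y _ => by simp
          right_inv := fun y _ => by simp }
      exact ⟨_, _, hφ.symm.trans h1⟩
  intro p0 hp0
  have hp := hφ.mapsTo hp0
  obtain ⟨h, ρ, hm⟩ := exists_invMetric hD hb'
  have C : Ctx (Sg F Ω) h ρ := by
    refine ⟨hD, hc', ⟨_, hp⟩, hb', hm, fun X hX => ?_⟩
    refine exists_isFlow_of_complete hD (fun x hx => (hX.1 x hx).differentiableWithinAt)
      (kil_complete hD hm (K := (L ∘ f) '' K)
        (hK.image_of_continuousOn (hφ.diffOn.continuousOn.mono hKU)) ?_ (fun y hy => ?_) hX)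
    · rintro _ ⟨x, hx, rfl⟩
      exact hφ.mapsTo (hKU hx)
    · obtain ⟨s, s', hs, hsK⟩ := hco _ (hφ.mapsTo_inv hy)
      exact ⟨_, _, (hφ.symm.trans hs).trans hφ, _, hsK, rfl⟩
  obtain ⟨s, s', hs, e, he, hse⟩ := exists_normalize hF hp
  obtain ⟨J, hJ, hJ0, hJ1⟩ := exists_J hF C (tauF_mem hΩ C.met) (nilF_mem hF hΩ C.met)
    (dilF_mem hΩ hcone C.met) (rotF_mem hF hΩ C.met) (fun a => conF_eq_zero C)
    (trace_zero C (hdz _ _ _ hD hφ h ρ hm)) he
  have hpe : ((0 : (Lam D).ker), cpx e) ∈ Sg F Ω := hse ▸ hs.mapsTo hp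
  have h1 := symAt_of_field C hJ hpe hJ0 hJ1
  have h2 := h1.transport hD hs.symm hpe
  rw [← hse, hs.left_inv _ hp] at h2
  have h3 := h2.transport hU hφ.symm hp
  rwa [hφ.left_inv p0 hp0] at h3

end Vale.Agent.N274X
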