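import Vale.Agent.N274X.Div

/-! The divergence theorem on the base of an invariant fibration with a closed invariant two-form
which is nondegenerate on the fibres. -/

open Set Filter Topology
open scoped Matrix

namespace Vale.Agent.N274X

open Vale.Agent.P274 Vale.Agent.P274.V

theorem block_det_trace {𝕜 E G : Type*} [Field 𝕜] [AddCommGroup E] [Module 𝕜 E]
    [FiniteDimensional 𝕜 E] [AddCommGroup G] [Module 𝕜 G] [FiniteDimensional 𝕜 G]
    (T : E × G →ₗ[𝕜] E × G) (P : E →ₗ[𝕜] E) (C : G →ₗ[𝕜] G)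
    (h1 : ∀ u v, (T (u, v)).1 = P u) (h2 : ∀ v, (T (0, v)).2 = C v) :
    LinearMap.det T = LinearMap.det P * LinearMap.det C ∧
      LinearMap.trace 𝕜 _ T = LinearMap.trace 𝕜 _ P + LinearMap.trace 𝕜 _ C := by
  classical
  set b := Module.finBasis 𝕜 E
  set c := Module.finBasis 𝕜 G
  have hm : LinearMap.toMatrix (b.prod c) (b.prod c) T = Matrix.fromBlocks
      (LinearMap.toMatrix b b P) 0
      (Matrix.of fun i j => c.repr (T (b j, 0)).2 i) (LinearMap.toMatrix c c C) := by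
    ext i j
    rcases i with i | i <;> rcases j with j | j
    · simp [LinearMap.toMatrix_apply, h1]
    · simp [LinearMap.toMatrix_apply, h1]
    · simp [LinearMap.toMatrix_apply]
    · simp [LinearMap.toMatrix_apply, h2]
  constructor
  · rw [← LinearMap.det_toMatrix (b.prod c), hm, Matrix.det_fromBlocks_zero₁₂,
      LinearMap.det_toMatrix, LinearMap.det_toMatrix]
  · rw [LinearMap.trace_eq_matrix_trace 𝕜 (b.prod c), hm, LinearMap.trace_eq_matrix_trace 𝕜 b,
      LinearMap.trace_eq_matrix_trace 𝕜 c]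
    simp [Matrix.trace, Fintype.sum_sum_type]

theorem hasDerivAt_matrix_det' {n : Type*} [Fintype n] [DecidableEq n] {A : ℝ → Matrix n n ℝ}
    {A' : Matrix n n ℝ} (h0 : (A 0).det ≠ 0)
    (hA : ∀ i j, HasDerivAt (fun t => A t i j) (A' i j) 0) :
    HasDerivAt (fun t => (A t).det) ((A 0).det * ((A 0)⁻¹ * A').trace) 0 := by
  have hu : IsUnit (A 0).det := isUnit_iff_ne_zero.2 h0
  have h1 := hasDerivAt_matrix_det (A := fun t => (A 0)⁻¹ * A t) (A' := (A 0)⁻¹ * A')
    (Matrix.nonsing_inv_mul _ hu) (fun i j => by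
      simp only [Matrix.mul_apply]
      exact HasDerivAt.fun_sum fun l _ => (hA l j).const_mul _)
  have h2 : (fun t => (A t).det) = fun t => (A 0).det * ((A 0)⁻¹ * A t).det := by
    funext t
    rw [← Matrix.det_mul, ← Matrix.mul_assoc, Matrix.mul_nonsing_inv _ hu, Matrix.one_mul]
  rw [h2]
  exact h1.const_mul _

variable {E G : Type*} [NormedAddCommGroup E] [NormedSpace ℂ E] [NormedAddCommGroup G]
  [NormedSpace ℂ G]

/-- A closed two-form. -/
structure Cf {X : Type*} [NormedAddCommGroup X] [NormedSpace ℝ X] (M : Set X)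
    (ω : X → X →L[ℝ] X →L[ℝ] ℝ) : Prop where
  smooth : ContDiffOn ℝ 1 ω M
  alt : ∀ x ∈ M, ∀ u v, ω x u v = - ω x v u
  closed : ∀ x ∈ M, ∀ u v w,
    fderiv ℝ ω x u v w + fderiv ℝ ω x v w u + fderiv ℝ ω x w u v = 0

/-- A closed two-form which is nondegenerate on the fibres of the projection to `E`. -/
structure Kf (M : Set (E × G)) (ω : E × G → (E × G) →L[ℝ] (E × G) →L[ℝ] ℝ) : Prop
    extends Cf M ω where
  nondeg : ∀ x ∈ M, ∀ v : G, (∀ w : G, ω x (0, v) (0, w) = 0) → v = 0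

/-- The restriction of a bilinear form to the vertical subspace. -/
noncomputable def vert (η : (E × G) →L[ℝ] (E × G) →L[ℝ] ℝ) : G →ₗ[ℝ] G →ₗ[ℝ] ℝ :=
  (ContinuousLinearMap.toLinearMap₁₂ η).compl₁₂ (LinearMap.inr ℝ E G) (LinearMap.inr ℝ E G)

theorem vert_apply (η : (E × G) →L[ℝ] (E × G) →L[ℝ] ℝ) (u v : G) :
    vert η u v = η (0, u) (0, v) := rfl

/-- The Gram determinant of a form on the vertical subspace. -/
noncomputable def gram [FiniteDimensional ℝ G] (η : (E × G) →L[ℝ] (E × G) →L[ℝ] ℝ) : ℝ :=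
  (LinearMap.toMatrix₂ (Module.finBasis ℝ G) (Module.finBasis ℝ G) (vert η)).det

theorem lift_inv [FiniteDimensional ℂ E] [FiniteDimensional ℂ G] [FiniteDimensional ℝ G]
    {η η' : (E × G) →L[ℝ] (E × G) →L[ℝ] ℝ} {T : E × G →L[ℂ] E × G} {P : E →L[ℂ] E}
    (hT : ∀ u, (T u).1 = P u.1) (hinv : ∀ u v, η' (T u) (T v) = η u v)
    (hnd : ∀ v : G, (∀ w : G, η' (0, v) (0, w) = 0) → v = 0) {δ δ' : ℝ} (hδ : 0 < δ)
    (hδ' : 0 < δ') (h1 : δ ^ 2 = |gram η|) (h2 : δ' ^ 2 = |gram η'|) :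
    δ' * ‖T.det‖ ^ 2 = δ * ‖P.det‖ ^ 2 ∧ ∀ v v' : E × G, v'.1 = P v.1 →
      (∀ w, η v (0, w) = 0) → (∀ w, η' v' (0, w) = 0) → v' = T v := by
  classical
  set e := Module.finBasis ℝ G with he
  set C : G →L[ℂ] G := (ContinuousLinearMap.snd ℂ E G).comp
    (T.comp (ContinuousLinearMap.inr ℂ E G)) with hC
  have hCa : ∀ v, T (0, v) = (0, C v) := by
    intro v
    refine Prod.ext ?_ rfl
    rw [hT]
    exact map_zero _
  have hCdet : T.det = P.det * C.det :=
    (block_det_trace (T : E × G →ₗ[ℂ] E × G) (P : E →ₗ[ℂ] E) (C : G →ₗ[ℂ] G)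
      (fun u v => hT (u, v)) (fun v => rfl)).1
  have hΩ : gram η = (‖C.det‖ ^ 2) ^ 2 * gram η' := by
    set R : G →ₗ[ℝ] G := (C.restrictScalars ℝ).toLinearMap with hR
    have h1 : vert η = (vert η').compl₁₂ R R := by
      ext u v
      rw [LinearMap.compl₁₂_apply, vert_apply, vert_apply, ← hinv, hCa, hCa]
      rfl
    unfold gram
    rw [h1, LinearMap.toMatrix₂_compl₁₂ e e, Matrix.det_mul, Matrix.det_mul, Matrix.det_transpose,
      LinearMap.det_toMatrix, ← abs_det_restrictScalars, sq_abs]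
    have h3 : (C.restrictScalars ℝ).det = LinearMap.det R := rfl
    rw [h3]
    ring
  have hδδ : δ = ‖C.det‖ ^ 2 * δ' := by
    refine (pow_left_inj₀ hδ.le (by positivity) two_ne_zero).1 ?_
    rw [h1, hΩ, abs_mul, ← h2, abs_of_nonneg (by positivity)]
    ring
  refine ⟨by rw [hCdet, hδδ, norm_mul]; ring, fun v v' h3 h4 h5 => ?_⟩
  have h6 : v' - T v = (0, (v' - T v).2) := Prod.ext (sub_eq_zero.2 (h3.trans (hT v).symm)) rfl
  have hsurj : Function.Surjective C := by
    have h0 : C.det ≠ 0 := fun h => by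
      rw [h] at hδδ
      exact hδ.ne' (by simpa using hδδ)
    have h3 : IsUnit (C : G →ₗ[ℂ] G) :=
      (LinearMap.isUnit_iff_isUnit_det _).2 (isUnit_iff_ne_zero.2 h0)
    exact ((Module.End.isUnit_iff _).1 h3).2
  have h7 := hnd (v' - T v).2 fun w => by
    obtain ⟨u, rfl⟩ := hsurj w
    rw [← h6, map_sub, sub_apply, h5, ← hCa, hinv, h4, sub_zero]
  rw [h7] at h6
  exact sub_eq_zero.1 h6

/-- The horizontal lift of a vector field preserves the volume of the fibres. -/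
theorem exists_lift [FiniteDimensional ℂ E] [FiniteDimensional ℂ G] [FiniteDimensional ℝ G]
    {D : Set E} (hD : IsOpen D) {M : Set (E × G)} (hMo : IsOpen M) (hMD : ∀ x ∈ M, x.1 ∈ D)
    {ω : E × G → (E × G) →L[ℝ] (E × G) →L[ℝ] ℝ} (hω : Kf M ω)
    {ρ : E → ℝ} (hρ : ContDiffOn ℝ 1 ρ D) {Y : E → E} (hY : ContDiffOn ℝ 1 Y D) :
    ∃ (δ : E × G → ℝ) (V : E × G → E × G), ContDiffOn ℝ 1 δ M ∧ ContDiffOn ℝ 1 V M ∧
      (∀ x, 0 < δ x) ∧ (∀ x ∈ M, δ x ^ 2 = |gram (ω x)|) ∧ (∀ x, (V x).1 = Y x.1) ∧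
      (∀ x ∈ M, ∀ w, ω x (V x) (0, w) = 0) ∧
      ∀ x ∈ M, dv (fun x => ρ x.1 * δ x) V x = δ x * dv ρ Y x.1 := by
  classical
  have hfE : FiniteDimensional ℝ E := FiniteDimensional.complexToReal E
  set e := Module.finBasis ℝ G with he
  set Ω : E × G → Matrix _ _ ℝ := fun x => LinearMap.toMatrix₂ e e (vert (ω x)) with hΩ
  have hΩa : ∀ x i j, Ω x i j = ω x (0, e i) (0, e j) := fun x i j => by
    simp only [hΩ, LinearMap.toMatrix₂_apply, vert_apply]
  have hΩ1 : ∀ i j, ContDiffOn ℝ 1 (fun x => Ω x i j) M := fun i j => by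
    simp only [hΩa]
    exact (hω.smooth.clm_apply contDiffOn_const).clm_apply contDiffOn_const
  have hsum : ∀ (η : (E × G) →L[ℝ] (E × G) →L[ℝ] ℝ) (c : Fin (Module.finrank ℝ G) → ℝ) (w : G),
      η (0, ∑ i, c i • e i) (0, w) = ∑ i, c i * η (0, e i) (0, w) := by
    intro η c w
    rw [← vert_apply, map_sum, LinearMap.sum_apply]
    simp only [map_smul, LinearMap.smul_apply, smul_eq_mul, vert_apply]
  have hext : ∀ (η : (E × G) →L[ℝ] ℝ), (∀ j, η (0, e j) = 0) → ∀ w, η (0, w) = 0 := by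
    intro η h w
    have h1 : (η : E × G →ₗ[ℝ] ℝ) ∘ₗ LinearMap.inr ℝ E G = 0 := e.ext fun j => h j
    exact LinearMap.congr_fun h1 w
  have hdet : ∀ x ∈ M, (Ω x).det ≠ 0 := by
    intro x hx h0
    obtain ⟨c, hc, hc0⟩ := Matrix.exists_vecMul_eq_zero_iff.2 h0
    have h1 := hω.nondeg x hx (∑ i, c i • e i) (hext _ fun j => by
      rw [hsum]
      have := congrFun hc0 j
      simpa only [Matrix.vecMul, dotProduct, hΩa, Pi.zero_apply] using this)
    exact hc (funext fun i => (Fintype.linearIndependent_iff.1 e.linearIndependent) c h1 i)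
  -- the horizontal lift
  set r : E × G → Fin (Module.finrank ℝ G) → ℝ := fun x j => - ω x (Y x.1, 0) (0, e j) with hr
  have hY1 : ContDiffOn ℝ 1 (fun x : E × G => Y x.1) M :=
    hY.comp contDiffOn_fst hMD
  have hr1 : ∀ j, ContDiffOn ℝ 1 (fun x => r x j) M := fun j =>
    ((hω.smooth.clm_apply (hY1.prodMk contDiffOn_const)).clm_apply contDiffOn_const).neg
  set c : E × G → Fin (Module.finrank ℝ G) → ℝ := fun x => dualCoord (Ω x)ᵀ (r x) with hc
  have hc1 : ∀ i, ContDiffOn ℝ 1 (fun x => c x i) M := by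
    intro i
    simp only [hc, dualCoord, Matrix.det_transpose]
    refine ((contDiffOn_matDet hΩ1).inv hdet).mul ?_
    simp only [Matrix.cramer_apply]
    refine contDiffOn_matDet fun k l => ?_
    by_cases hl : l = i
    · subst hl
      simp only [Matrix.updateCol_self]
      exact hr1 k
    · simp only [Matrix.updateCol_ne hl, Matrix.transpose_apply]
      exact hΩ1 l k
  set V : E × G → E × G := fun x => (Y x.1, ∑ i, c x i • e i) with hV
  have hV1 : ContDiffOn ℝ 1 V M :=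
    hY1.prodMk (ContDiffOn.sum fun i _ => (hc1 i).smul contDiffOn_const)
  have hVh : ∀ x ∈ M, ∀ w, ω x (V x) (0, w) = 0 := by
    intro x hx
    refine hext _ fun j => ?_
    have h1 := congrFun (mulVec_dualCoord (Ω x)ᵀ (r x)
      (by rw [Matrix.det_transpose]; exact hdet x hx)) j
    have h2 : V x = (Y x.1, 0) + (0, ∑ i, c x i • e i) := by simp [hV]
    rw [h2, map_add, add_apply, hsum]
    simp only [Matrix.mulVec, dotProduct, Matrix.transpose_apply, hΩa] at h1
    have h3 : ∑ i, c x i * ω x (0, e i) (0, e j) = r x j := by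
      rw [← h1]
      exact Finset.sum_congr rfl fun i _ => mul_comm _ _
    rw [h3, hr]
    simp
  -- the density
  set δ : E × G → ℝ := fun x => Real.exp (Real.log (Ω x).det / 2) with hδ
  have hδ1 : ContDiffOn ℝ 1 δ M :=
    (((contDiffOn_matDet hΩ1).log hdet).div_const 2).exp
  refine ⟨δ, V, hδ1, hV1, fun x => Real.exp_pos _, fun x hx => ?_, fun x => rfl, hVh, ?_⟩
  · simp only [hδ]
    rw [← Real.exp_nat_mul, show ((2 : ℕ) : ℝ) * (Real.log (Ω x).det / 2) = Real.log (Ω x).det by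
      push_cast; ring, Real.exp_log_eq_abs (hdet x hx)]
    rfl
  -- the divergence
  · intro x hx
    have hn := hMo.mem_nhds hx
    have hωd : HasFDerivAt ω (fderiv ℝ ω x) x :=
      ((hω.smooth.differentiableOn one_ne_zero).differentiableAt hn).hasFDerivAt
    have hVd : HasFDerivAt V (fderiv ℝ V x) x :=
      ((hV1.differentiableOn one_ne_zero).differentiableAt hn).hasFDerivAt
    have hYd : HasFDerivAt Y (fderiv ℝ Y x.1) x.1 :=
      ((hY.differentiableOn one_ne_zero).differentiableAt (hD.mem_nhds (hMD x hx))).hasFDerivAt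
    have hρd : HasFDerivAt ρ (fderiv ℝ ρ x.1) x.1 :=
      ((hρ.differentiableOn one_ne_zero).differentiableAt (hD.mem_nhds (hMD x hx))).hasFDerivAt
    have hδd : HasFDerivAt δ (fderiv ℝ δ x) x :=
      ((hδ1.differentiableOn one_ne_zero).differentiableAt hn).hasFDerivAt
    have hV' : ∀ u, (fderiv ℝ V x u).1 = fderiv ℝ Y x.1 u.1 := by
      intro u
      have h1 : HasFDerivAt (fun y => (V y).1)
          ((ContinuousLinearMap.fst ℝ E G).comp (fderiv ℝ V x)) x := hasFDerivAt_fst.comp x hVd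
      have h2 : HasFDerivAt (fun y : E × G => Y y.1)
          ((fderiv ℝ Y x.1).comp (ContinuousLinearMap.fst ℝ E G)) x := hYd.comp x hasFDerivAt_fst
      exact congrArg (fun T : E × G →L[ℝ] E => T u) (h1.unique h2)
    set B : G →ₗ[ℝ] G := (LinearMap.snd ℝ E G) ∘ₗ (fderiv ℝ V x : E × G →ₗ[ℝ] E × G) ∘ₗ
      LinearMap.inr ℝ E G with hB
    have hBa : ∀ v, fderiv ℝ V x (0, v) = (0, B v) := by
      intro v
      refine Prod.ext ?_ rfl
      rw [hV']
      exact map_zero _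
    have htr : LinearMap.trace ℝ _ (fderiv ℝ V x).toLinearMap =
        LinearMap.trace ℝ _ (fderiv ℝ Y x.1).toLinearMap + LinearMap.trace ℝ _ B :=
      (block_det_trace _ _ B (fun u v => hV' (u, v)) (fun v => rfl)).2
    -- derivative of the horizontality condition
    have hh : ∀ u w, fderiv ℝ ω x u (V x) (0, w) + ω x (fderiv ℝ V x u) (0, w) = 0 := by
      intro u w
      have h1 := (hωd.clm_apply hVd).clm_apply (hasFDerivAt_const ((0 : E), w) x)
      have h2 : HasFDerivAt (fun y => ω y (V y) (0, w)) (0 : E × G →L[ℝ] ℝ) x :=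
        (hasFDerivAt_const (0 : ℝ) x).congr_of_eventuallyEq (by
          filter_upwards [hn] with y hy using hVh y hy w)
      have h3 := congrArg (fun T : E × G →L[ℝ] ℝ => T u) (h1.unique h2)
      simp only [add_apply, ContinuousLinearMap.comp_apply,
        ContinuousLinearMap.flip_apply, zero_apply, map_zero, zero_add] at h3
      linarith
    -- derivative of the skew symmetry
    have hal : ∀ u v w, fderiv ℝ ω x u v w = - fderiv ℝ ω x u w v := by
      intro u v w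
      have h1 := (hωd.clm_apply (hasFDerivAt_const v x)).clm_apply (hasFDerivAt_const w x)
      have h2 := ((hωd.clm_apply (hasFDerivAt_const w x)).clm_apply (hasFDerivAt_const v x)).neg
      have h3 := congrArg (fun T : E × G →L[ℝ] ℝ => T u) (h1.unique (h2.congr_of_eventuallyEq (by
        filter_upwards [hn] with y hy using hω.alt y hy v w)))
      simpa using h3
    have hL : ∀ v w : G, fderiv ℝ ω x (V x) (0, v) (0, w) =
        - (ω x (0, B v) (0, w) + ω x (0, v) (0, B w)) := by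
      intro v w
      have h1 := hω.closed x hx (V x) (0, v) (0, w)
      have h2 := hh (0, v) w
      have h3 := hh (0, w) v
      rw [hBa] at h2 h3
      have h4 := hal (0, v) (0, w) (V x)
      have h5 := hω.alt x hx (0, B w) (0, v)
      linarith
    have hline : HasDerivAt (fun t : ℝ => x + t • V x) (V x) 0 := by
      simpa using ((hasDerivAt_id (0 : ℝ)).smul_const (V x)).const_add x
    have hx0 : x + (0 : ℝ) • V x = x := by simp
    set Bm := LinearMap.toMatrix e e B with hBm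
    have hA : ∀ i j, HasDerivAt (fun t : ℝ => Ω (x + t • V x) i j)
        ((-(Bmᵀ * Ω x + Ω x * Bm)) i j) 0 := by
      intro i j
      have h1 := (hωd.clm_apply (hasFDerivAt_const ((0 : E), e i) x)).clm_apply
        (hasFDerivAt_const ((0 : E), e j) x)
      have h2 := HasFDerivAt.comp_hasDerivAt_of_eq (0 : ℝ) h1 hline hx0.symm
      simp only [hΩa]
      refine h2.congr_deriv ?_
      simp only [add_apply, ContinuousLinearMap.comp_apply, ContinuousLinearMap.flip_apply,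
        zero_apply, map_zero, zero_add]
      rw [hL]
      have h3 : Bmᵀ * Ω x = LinearMap.toMatrix₂ e e ((vert (ω x)).compl₁₂ B LinearMap.id) := by
        rw [LinearMap.toMatrix₂_compl₁₂ e e, LinearMap.toMatrix_id, Matrix.mul_one]
      have h4 : Ω x * Bm = LinearMap.toMatrix₂ e e ((vert (ω x)).compl₁₂ LinearMap.id B) := by
        rw [LinearMap.toMatrix₂_compl₁₂ e e, LinearMap.toMatrix_id, Matrix.transpose_one,
          Matrix.one_mul]
      rw [h3, h4]
      simp only [Matrix.neg_apply, Matrix.add_apply, LinearMap.toMatrix₂_apply,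
        LinearMap.compl₁₂_apply, vert_apply, LinearMap.id_apply]
    have hd0 : (Ω (x + (0 : ℝ) • V x)).det ≠ 0 := by rw [hx0]; exact hdet x hx
    have h1 := hasDerivAt_matrix_det' (A := fun t : ℝ => Ω (x + t • V x)) hd0 hA
    have hu : IsUnit (Ω x).det := isUnit_iff_ne_zero.2 (hdet x hx)
    have h2 : ((Ω x)⁻¹ * (-(Bmᵀ * Ω x + Ω x * Bm))).trace = - 2 * LinearMap.trace ℝ _ B := by
      rw [Matrix.mul_neg, Matrix.mul_add, Matrix.trace_neg, Matrix.trace_add,
        ← Matrix.mul_assoc _ (Ω x) Bm, Matrix.nonsing_inv_mul _ hu, Matrix.one_mul,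
        Matrix.trace_mul_comm, Matrix.mul_assoc, Matrix.mul_nonsing_inv _ hu, Matrix.mul_one,
        Matrix.trace_transpose, LinearMap.trace_eq_matrix_trace ℝ e]
      ring
    simp only [hx0] at h1
    rw [h2] at h1
    have h3 := ((h1.log hd0).div_const 2).exp
    simp only [hx0] at h3
    have h4 : HasDerivAt (fun t : ℝ => δ (x + t • V x)) (fderiv ℝ δ x (V x)) 0 :=
      HasFDerivAt.comp_hasDerivAt_of_eq (0 : ℝ) hδd hline hx0.symm
    have h5 : fderiv ℝ δ x (V x) = - δ x * LinearMap.trace ℝ _ B := by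
      rw [h4.unique h3]
      have := hdet x hx
      simp only [hδ]
      field_simp
    have h6 : HasFDerivAt (fun y : E × G => ρ y.1 * δ y) _ x :=
      (hρd.comp x hasFDerivAt_fst).mul hδd
    unfold dv
    rw [h6.fderiv, htr]
    simp only [add_apply, smul_apply,
      ContinuousLinearMap.comp_apply, ContinuousLinearMap.coe_fst', smul_eq_mul, h5,
      Function.comp_apply]
    have h7 : (V x).1 = Y x.1 := rfl
    rw [h7]
    ring

theorem lift_dv [FiniteDimensional ℂ E] [FiniteDimensional ℂ G] {M Γ : Type*}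
    [TopologicalSpace M] [T2Space M] [LocallyCompactSpace M] [Group Γ] [MulAction Γ M]
    [ContinuousConstSMul Γ M] (ψ : M → OpenPartialHomeomorph M (E × G))
    (hψ : ∀ x, x ∈ (ψ x).source)
    (hpd : ∀ K : Set M, IsCompact K → {γ : Γ | ∃ x ∈ K, γ • x ∈ K}.Finite)
    (hco : ∃ K : Set M, IsCompact K ∧ ∀ x : M, ∃ γ : Γ, γ • x ∈ K)
    (hd : ∀ x y (γ : Γ), DifferentiableOn ℂ (tr (ψ x) (ψ y) γ) (tr (ψ x) (ψ y) γ).source)
    {D : Set E} (hD : IsOpen D) (hψD : ∀ x, ∀ e ∈ (ψ x).target, e.1 ∈ D)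
    {ω : M → E × G → (E × G) →L[ℝ] (E × G) →L[ℝ] ℝ} (hω : ∀ x, Kf (ψ x).target (ω x))
    {b : Γ → E → E}
    (hb : ∀ x y (γ : Γ), ∀ e ∈ (tr (ψ x) (ψ y) γ).source, (tr (ψ x) (ψ y) γ e).1 = b γ e.1)
    (hbd : ∀ γ, ∀ y ∈ D, DifferentiableAt ℂ (b γ) y)
    (hinv : ∀ x y (γ : Γ), ∀ e ∈ (tr (ψ x) (ψ y) γ).source, ∀ u v,
      ω y (tr (ψ x) (ψ y) γ e) (fderiv ℂ (tr (ψ x) (ψ y) γ) e u)
        (fderiv ℂ (tr (ψ x) (ψ y) γ) e v) = ω x e u v)
    {ρ : E → ℝ} (hρ : ContDiffOn ℝ 1 ρ D)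
    (hρinv : ∀ γ, ∀ y ∈ D, ρ (b γ y) * ‖(fderiv ℂ (b γ) y).det‖ ^ 2 = ρ y)
    {Y : E → E} (hY : ContDiffOn ℝ 1 Y D)
    (hYinv : ∀ γ, ∀ y ∈ D, Y (b γ y) = fderiv ℂ (b γ) y (Y y))
    (hdiv : ∀ y ∈ D, 0 ≤ dv ρ Y y) (x0 : M) : dv ρ Y (ψ x0 x0).1 = 0 := by
  have hfG : FiniteDimensional ℝ G := FiniteDimensional.complexToReal G
  choose δ V hδ1 hV1 hδ0 hδ2 hVf hVh hdv using fun x =>
    exists_lift hD (ψ x).open_target (hψD x) (hω x) hρ hY
  have key : ∀ x y (γ : Γ), ∀ e ∈ (tr (ψ x) (ψ y) γ).source,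
      δ y (tr (ψ x) (ψ y) γ e) * ‖(fderiv ℂ (tr (ψ x) (ψ y) γ) e).det‖ ^ 2 =
        δ x e * ‖(fderiv ℂ (b γ) e.1).det‖ ^ 2 ∧
      V y (tr (ψ x) (ψ y) γ e) = fderiv ℂ (tr (ψ x) (ψ y) γ) e (V x e) := by
    intro x y γ e he
    set τ := tr (ψ x) (ψ y) γ with hτ
    have he1 : e ∈ (ψ x).target := (mem_tr_source.1 he).1
    have he2 : τ e ∈ (ψ y).target := (mem_tr_target.1 (τ.map_source he)).1
    have hn := τ.open_source.mem_nhds he
    have hfst : ∀ u, (fderiv ℂ τ e u).1 = fderiv ℂ (b γ) e.1 u.1 := by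
      intro u
      have h1 : HasFDerivAt (fun y => (τ y).1)
          ((ContinuousLinearMap.fst ℂ E G).comp (fderiv ℂ τ e)) e :=
        hasFDerivAt_fst.comp e ((hd x y γ).differentiableAt hn).hasFDerivAt
      have h2 : HasFDerivAt (fun y : E × G => b γ y.1)
          ((fderiv ℂ (b γ) e.1).comp (ContinuousLinearMap.fst ℂ E G)) e :=
        (hbd γ e.1 (hψD x e he1)).hasFDerivAt.comp e hasFDerivAt_fst
      have h3 := h1.unique (h2.congr_of_eventuallyEq (by
        filter_upwards [hn] with z hz using hb x y γ z hz))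
      exact congrArg (fun T : E × G →L[ℂ] E => T u) h3
    obtain ⟨h1, h2⟩ := lift_inv hfst (hinv x y γ e he) ((hω y).nondeg _ he2) (hδ0 x e)
      (hδ0 y (τ e)) (hδ2 x e he1) (hδ2 y _ he2)
    refine ⟨h1, h2 _ _ ?_ (hVh x e he1) (hVh y _ he2)⟩
    rw [hVf, hVf, hb x y γ e he, hYinv γ _ (hψD x e he1)]
  have h1 := dv_atlas ψ hψ hpd hco hd (ρ := fun x e => ρ e.1 * δ x e)
    (fun x => (hρ.comp contDiffOn_fst (hψD x)).mul (hδ1 x)) (fun x y γ e he => by
      rw [mul_assoc, (key x y γ e he).1, hb x y γ e he,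
        ← hρinv γ _ (hψD x e (mem_tr_source.1 he).1)]
      ring) hV1 (fun x y γ e he => (key x y γ e he).2)
    (fun x e he => by rw [hdv x e he]; exact mul_nonneg (hδ0 x e).le (hdiv _ (hψD x e he))) x0
  rw [hdv x0 _ ((ψ x0).map_source (hψ x0))] at h1
  exact (mul_eq_zero.1 h1).resolve_left (hδ0 _ _).ne'

end Vale.Agent.N274X
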