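import Vale.Agent.N274X.Kahler
import Vale.Agent.N274X.Defs

/-! Bridges to the definitions of the statement, and the assembly. -/

open Set Filter Topology
open scoped Manifold

namespace Vale.Agent.N274X

open Vale.Agent.P274 Vale.Agent.P274.V Vale.Agent.P274.Z

/-- The space `ℂ^n`. -/
abbrev Cn (n : ℕ) : Type := EuclideanSpace ℂ (Fin n)

theorem Semialgebraic.old {n : ℕ} {S : Set (Cn n)} (h : Semialgebraic S) : IsSemialgebraic S := by
  have hz : ∀ p : MvPolynomial (Fin n ⊕ Fin n) ℝ, IsSemialgebraic {z | realEval p z = 0} := by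
    intro p
    have h1 : {z : Cn n | realEval p z = 0} = {z | 0 < realEval (p ^ 2) z}ᶜ := by
      ext z
      simp [realEval, sq_pos_iff]
    rw [h1]
    exact (IsSemialgebraic.pos _).compl
  unfold Semialgebraic at h
  induction h using BooleanSubalgebra.closure_bot_sup_induction with
  | mem T hT =>
    obtain ⟨p, rfl | rfl⟩ := hT
    · exact hz p
    · exact IsSemialgebraic.pos p
  | bot =>
    have h1 : (⊥ : Set (Cn n)) = {z | 0 < realEval 0 z} := by
      ext z
      simp [realEval]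
    rw [h1]
    exact IsSemialgebraic.pos _
  | sup S _ T _ h1 h2 =>
    have h3 : S ⊔ T = (Sᶜ ∩ Tᶜ)ᶜ := by
      rw [compl_inter, compl_compl, compl_compl]
      rfl
    rw [h3]
    exact (h1.compl.inter h2.compl).compl
  | compl S _ h1 => exact h1.compl

theorem analyticOn_iff {n k : ℕ} {f : Cn n → Cn k} {U : Set (Cn n)} :
    AnalyticOn ℂ f U ↔ HolOn f U := by
  refine forall₂_congr fun x hx => ?_
  rw [analyticWithinAt_iff_exists_analyticAt, insert_eq_of_mem hx]
  constructor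
  · rintro ⟨g, h1, h2⟩
    obtain ⟨W, hW, hxW, h3⟩ := mem_nhdsWithin.1 h1
    obtain ⟨V, hV, hVo, hxV⟩ := eventually_nhds_iff.1 h2.eventually_analyticAt
    exact ⟨W ∩ V, hW.inter hVo, ⟨hxW, hxV⟩, g,
      fun y hy => (hV y hy.2).differentiableAt.differentiableWithinAt,
      fun y hy => h3 ⟨hy.2.1, hy.1⟩⟩
  · rintro ⟨W, hW, hxW, g, hg, h⟩
    exact ⟨g, mem_nhdsWithin.2 ⟨W, hW, hxW, fun y hy => h y ⟨hy.2, hy.1⟩⟩,
      HolOs.analyticOnNhd_of_differentiableOn hW hg x hxW⟩

theorem isBSD_of_old {n : ℕ} {D : Set (Cn n)} (h : IsBoundedSymmetricDomain D) : IsBSD D := by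
  refine ⟨h.1, h.2.1, h.2.2.1, fun x hx => ?_⟩
  obtain ⟨s, hs, hsx, r, hr, h1⟩ := h.2.2.2 x hx
  refine ⟨s, hs.diffOn, hs.mapsTo, hs.left_inv, hsx, ?_⟩
  filter_upwards [mem_nhdsWithin_of_mem_nhds (h.1.mem_nhds hx),
    mem_nhdsWithin_of_mem_nhds (Metric.ball_mem_nhds x hr), self_mem_nhdsWithin] with y h2 h3 h4 h5
  exact h4 (h1 y h2 h3 h5)

theorem simplyConnected_of_retract {M F : Type*} [TopologicalSpace M] [TopologicalSpace F]
    [SimplyConnectedSpace M] (i : C(F, M)) (r : C(M, F)) (h : ∀ y, r (i y) = y) :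
    SimplyConnectedSpace F := by
  refine simply_connected_iff_paths_homotopic'.2 ⟨?_, fun p q => ?_⟩
  · exact Function.Surjective.pathConnectedSpace (f := r) (fun y => ⟨i y, h y⟩) r.continuous
  · obtain ⟨H⟩ := SimplyConnectedSpace.paths_homotopic (p.map i.continuous) (q.map i.continuous)
    exact ⟨(ContinuousMap.HomotopyRel.compContinuousMap H r).cast
      (ContinuousMap.ext fun t => h _) (ContinuousMap.ext fun t => h _)⟩

theorem isBSD_point : IsBoundedSymmetricDomain (univ : Set (Cn 0)) := by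
  have h1 : (univ : Set (Cn 0)) = {0} := eq_singleton_iff_unique_mem.2
    ⟨mem_univ _, fun _ _ => Subsingleton.elim _ _⟩
  exact ⟨isOpen_univ, h1 ▸ isConnected_singleton, h1 ▸ Bornology.isBounded_singleton, fun _ _ =>
    ⟨id, ⟨differentiableOn_id, differentiableOn_id, fun _ h => h, fun _ h => h,
      fun _ _ => rfl, fun _ _ => rfl⟩, rfl, 1, one_pos, fun y _ _ _ => Subsingleton.elim _ _⟩⟩

theorem isConnected_of_bihol {n k : ℕ} {U : Set (Cn n)} {V : Set (Cn k)} {f : Cn n → Cn k}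
    {g : Cn k → Cn n} (h : IsBihol U V f g) (hU : IsConnected U) : IsConnected V := by
  have : V = f '' U := by
    ext y
    exact ⟨fun hy => ⟨g y, h.mapsTo_inv hy, h.right_inv y hy⟩, by
      rintro ⟨x, hx, rfl⟩; exact h.mapsTo hx⟩
  rw [this]
  exact hU.image _ h.hol.continuousOn

theorem deck_md {E M X : Type*} [NormedAddCommGroup E] [NormedSpace ℂ E] [TopologicalSpace M]
    [ChartedSpace E M] [TopologicalSpace X] [ChartedSpace E X] {p : M → X}
    (hp : IsLocalDiffeomorph 𝓘(ℂ, E) 𝓘(ℂ, E) 1 p) (γ : N274.deck p) (x : M) :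
    MDifferentiableAt 𝓘(ℂ, E) 𝓘(ℂ, E) (fun x : M => γ • x) x := by
  have h1 := hp ((γ : Equiv.Perm M) x)
  have h2 := h1.localInverse_mdifferentiableAt one_ne_zero
  rw [γ.2.2.2] at h2
  refine (MDifferentiableAt.comp x (g := h1.localInverse) (f := p) h2
    ((hp x).mdifferentiableAt one_ne_zero)).congr_of_eventuallyEq ?_
  filter_upwards [γ.2.1.continuousAt.eventually h1.localInverse_eventuallyEq_left] with y hy
  have h3 : h1.localInverse (p ((γ : Equiv.Perm M) y)) = (γ : Equiv.Perm M) y := hy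
  rw [γ.2.2.2] at h3
  exact h3.symm

theorem product_main {N N' : ℕ} {E B G X M F : Type} [NormedAddCommGroup E] [NormedSpace ℂ E]
    [FiniteDimensional ℂ E] [NormedAddCommGroup B] [NormedSpace ℂ B] [FiniteDimensional ℂ B]
    [NormedAddCommGroup G] [NormedSpace ℂ G] [FiniteDimensional ℂ G]
    [TopologicalSpace X] [ChartedSpace E X]
    [T2Space X] [CompactSpace X] [TopologicalSpace M] [ChartedSpace E M]
    [SimplyConnectedSpace M] [TopologicalSpace F] [ChartedSpace G F]
    [IsManifold 𝓘(ℂ, G) 1 F] [T2Space F] [CompactSpace F]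
    (hX : EmbedsIn (Cn N') E X) {p : M → X} (hp : IsCoveringMap p)
    (hs : Function.Surjective p) (hloc : IsLocalDiffeomorph 𝓘(ℂ, E) 𝓘(ℂ, E) 1 p)
    (I : Set (MvPolynomial (Fin N) ℂ)) {U O : Set (Cn N)} (hO : IsOpen O)
    (hU : U = zeroSet I ∩ O) (hb : Bornology.IsBounded U) (hS : IsSemialgebraic U)
    (hM : IsProduct E M U B G F) :
    SimplyConnectedSpace F ∧
      ∃ (k : ℕ) (D : Set (Cn k)), IsBSD D ∧ IsProduct E M D B G F := by
  have hpr : ProperSpace E := FiniteDimensional.proper ℂ E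
  let _ : NormedSpace ℝ E := NormedSpace.complexToReal
  obtain ⟨j, hj1, hj2, hj3⟩ := hM
  have h : Emb E G j U := ⟨hj1, hj2, hj3⟩
  have hlc : LocallyCompactSpace M := ChartedSpace.locallyCompactSpace E M
  have hlp : LocallyPathConnectedSpace M := ChartedSpace.locallyPathConnectedSpace E M
  have hT2 : T2Space M := T2Space.of_injective_continuous h.inj hj1.continuous
  obtain ⟨x0⟩ : Nonempty M := inferInstance
  have hF : SimplyConnectedSpace F := by
    have h1 : MDifferentiable 𝓘(ℂ, G) 𝓘(ℂ, E)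
        fun y : F => j.invFun ((j x0).1, 0, y) := fun y => h.inv_md
      (mdifferentiableAt_const.prodMk (mdifferentiableAt_const.prodMk mdifferentiableAt_id))
      (Eventually.of_forall fun _ => h.mem x0)
    exact simplyConnected_of_retract ⟨_, h1.continuous⟩ ⟨_, hj1.continuous.snd.snd⟩ fun y =>
      congrArg (fun z => z.2.2) (h.right (y := ((j x0).1, 0, y)) (h.mem x0))
  have hUc : IsConnected U := by
    have h1 : U = range fun x => (j x).1 := by
      ext u
      exact ⟨fun hu => ⟨j.invFun (u, 0, (j x0).2.2),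
        congrArg Prod.fst (h.right (y := (u, 0, (j x0).2.2)) hu)⟩, by
        rintro ⟨x, rfl⟩; exact h.mem x⟩
    rw [h1]
    exact isConnected_range hj1.continuous.fst
  have hΓ : ∀ γ : N274.deck p, MDifferentiable 𝓘(ℂ, E) 𝓘(ℂ, E) fun x : M => γ • x :=
    fun γ x => deck_md hloc γ x
  obtain ⟨K, hK, hKU, hco⟩ := h.cocompact hb (j x0).2.2 hΓ (N274.deck_cocompact hp hs)
  have fin : ∀ (k : ℕ) (D : Set (Cn k)), IsBoundedSymmetricDomain D → Bihol U D →
      ∃ (k : ℕ) (D : Set (Cn k)), IsBSD D ∧ IsProduct E M D B G F := by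
    rintro k D hD ⟨f, g, hfg⟩
    set e := h.homeo hD.1 hfg with he
    refine ⟨k, D, isBSD_of_old hD, e, fun x => (h.md_to hfg.hol x).prodMk
      (mdifferentiableAt_snd.comp x (hj1 x)), ?_, fun x => ⟨e.target, e.open_target,
        e.map_source (mem_univ x), e.symm, fun y hy =>
          (h.md_inv hD.1 hfg hy.1).mdifferentiableWithinAt, fun y _ => e.left_inv (mem_univ y)⟩⟩
    rw [← image_univ]
    exact e.image_source_eq_target
  refine ⟨hF, ?_⟩
  rcases main_algebraic I hO hU hUc hb hS hK hKU hco with ⟨U1, rfl, hbi⟩ |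
    ⟨k, U1, -, h1, h2, ⟨f, g, hfg⟩, l, D, B, σ, Ω, hσ, h4, -, -, h7, h8, -⟩
  · exact fin 0 univ isBSD_point hbi
  · obtain ⟨hK1, hK1U, hco1⟩ := cocompactAut_of_bihol h1 hK hKU hco hfg
    have hc1 := isConnected_of_bihol hfg hUc
    obtain ⟨ι, -, hι⟩ := hX
    refine fin k U1 ⟨h1, hc1, h2, symAt_of_dz h1 hc1.isPreconnected h2 hK1 hK1U hco1 hσ h4 h7 h8
      fun S f' g' hSo hf' hm ρ hρ => dz_of_proj h hb hSo (hfg.trans ((isBihol_iff h1 hSo).2 hf'))
        hΓ (N274.deck_finite hp) (N274.deck_cocompact hp hs) (ι := fun x => (ι (p x)).submodule)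
        (fun γ x => congrArg (fun y => (ι y).submodule) (γ.2.2.2 x)) (fun x => ?_) hρ⟩ ⟨f, g, hfg⟩
    obtain ⟨W, hW, hxW, s, hsW⟩ := hι (p x)
    have hpd : ∀ y, MDifferentiableAt 𝓘(ℂ, E) 𝓘(ℂ, E) p y := fun y =>
      (hloc y).mdifferentiableAt one_ne_zero
    have hsd' : ∀ y ∈ p ⁻¹' W, MDifferentiableAt 𝓘(ℂ, E) 𝓘(ℂ, Cn N') s (p y) := fun y hy =>
      (hsW _ hy).2.choose_spec.1.mdifferentiableAt
    refine ⟨p ⁻¹' W, hW.preimage hp.continuous, hxW, s ∘ p, fun y hy =>
      ((hsd' y hy).comp y (hpd y)).mdifferentiableWithinAt, fun y hy =>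
        ⟨fun h0 => ?_, (hsW _ hy).1, fun v hv => ?_⟩⟩
    · have h3 := (ι (p y)).finrank_submodule
      rw [(hsW _ hy).1, show s (p y) = 0 from h0, Submodule.span_zero_singleton, finrank_bot] at h3
      exact zero_ne_one h3
    · obtain ⟨L, hL, hLv⟩ := (hsW _ hy).2
      rw [mfderiv_comp y (hsd' y hy) (hpd y), hL.mfderiv] at hv
      exact ((hloc y).mfderivToContinuousLinearEquiv one_ne_zero).injective
        ((hLv _ hv).trans (map_zero _).symm)

end Vale.Agent.N274X
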