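import Vale.Agent.N274X.Main

/-! The compact factor is immersed in a projective space; change of the chart space. -/

open Set Filter Topology
open scoped Manifold ContDiff

namespace Vale.Agent.N274X

section
variable (V E : Type) [NormedAddCommGroup V] [NormedSpace ℂ V] [NormedAddCommGroup E]
  [NormedSpace ℂ E]

/-- A holomorphic immersion into the projective space of `V`, not necessarily injective. -/
def Imm (X : Type) [TopologicalSpace X] [ChartedSpace E X] : Prop :=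
  ∃ J : X → Submodule ℂ V, ∀ x, ∃ W, IsOpen W ∧ x ∈ W ∧ ∃ s : X → V, ∀ y ∈ W, s y ≠ 0 ∧
    J y = ℂ ∙ s y ∧ ∃ L : E →L[ℂ] V, HasMFDerivAt 𝓘(ℂ, E) 𝓘(ℂ, V) s y L ∧
      ∀ v, L v ∈ ℂ ∙ s y → v = 0

end

variable {V E G H B A : Type} [NormedAddCommGroup V] [NormedSpace ℂ V] [NormedAddCommGroup E]
  [NormedSpace ℂ E] [NormedAddCommGroup G] [NormedSpace ℂ G] [NormedAddCommGroup H]
  [NormedSpace ℂ H] [NormedAddCommGroup B] [NormedSpace ℂ B] [NormedAddCommGroup A]
  [NormedSpace ℂ A]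

theorem imm_of_product {X M F : Type} [TopologicalSpace X] [ChartedSpace E X] [TopologicalSpace M]
    [ChartedSpace E M] [Nonempty M] [TopologicalSpace F] [ChartedSpace G F]
    (hX : EmbedsIn V E X) {p : M → X} (hloc : IsLocalDiffeomorph 𝓘(ℂ, E) 𝓘(ℂ, E) 1 p)
    {U : Set A} (hM : IsProduct E M U B G F) : Imm V G F := by
  obtain ⟨j, hj1, hj2, hj3⟩ := hM
  have h : Emb E G j U := ⟨hj1, hj2, hj3⟩
  obtain ⟨x0⟩ : Nonempty M := inferInstance
  obtain ⟨ι, -, hι⟩ := hX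
  set φ : F → M := fun y => j.invFun ((j x0).1, 0, y) with hφ
  have h1 : MDifferentiable 𝓘(ℂ, G) 𝓘(ℂ, E) φ := fun y => h.inv_md
    (mdifferentiableAt_const.prodMk (mdifferentiableAt_const.prodMk mdifferentiableAt_id))
    (Eventually.of_forall fun _ => h.mem x0)
  have h2 : MDifferentiable 𝓘(ℂ, E) 𝓘(ℂ, G) fun x => (j x).2.2 := fun x =>
    mdifferentiableAt_snd.comp x (mdifferentiableAt_snd.comp x (hj1 x))
  have h3 : (fun x => (j x).2.2) ∘ φ = id := funext fun y =>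
    congrArg (fun z => z.2.2) (h.right (y := ((j x0).1, 0, y)) (h.mem x0))
  have h4 : ∀ y (v : G), mfderiv 𝓘(ℂ, G) 𝓘(ℂ, E) φ y v = 0 → v = 0 := fun y v hv => by
    have h5 := mfderiv_comp y (h2 (φ y)) (h1 y)
    rw [h3, mfderiv_id] at h5
    have h6 := congrArg (fun T : G →L[ℂ] G => T v) h5
    exact h6.trans ((congrArg (mfderiv 𝓘(ℂ, E) 𝓘(ℂ, G) (fun x => (j x).2.2) (φ y)) hv).trans
      (map_zero _))
  have hpd : ∀ y, MDifferentiableAt 𝓘(ℂ, E) 𝓘(ℂ, E) p y := fun y =>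
    (hloc y).mdifferentiableAt one_ne_zero
  refine ⟨fun y => (ι (p (φ y))).submodule, fun x => ?_⟩
  obtain ⟨W, hW, hxW, s, hs⟩ := hι (p (φ x))
  refine ⟨(p ∘ φ) ⁻¹' W, hW.preimage (hloc.contMDiff.continuous.comp h1.continuous), hxW,
    s ∘ p ∘ φ, fun y hy => ?_⟩
  obtain ⟨a, L, hL, hLv⟩ := hs _ hy
  refine ⟨fun h0 => ?_, a, _, hL.comp y ((hpd _).hasMFDerivAt.comp y (h1 y).hasMFDerivAt),
    fun v hv => h4 y v ?_⟩
  · have h7 := (ι (p (φ y))).finrank_submodule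
    rw [show (ι (p (φ y))).submodule = _ from a, show s ((p ∘ φ) y) = 0 from h0,
      Submodule.span_zero_singleton, finrank_bot] at h7
    exact zero_ne_one h7
  · exact ((hloc (φ y)).mfderivToContinuousLinearEquiv one_ne_zero).injective
      ((hLv _ hv).trans (map_zero _).symm)

variable {F : Type} [TopologicalSpace F]

theorem hasMF_iff [ChartedSpace E F] {s : F → V} {y : F} {L : E →L[ℂ] V} :
    HasMFDerivAt 𝓘(ℂ, E) 𝓘(ℂ, V) s y L ↔
      ContinuousAt s y ∧ HasFDerivAt (s ∘ (chartAt E y).symm) L (chartAt E y y) := by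
  simp only [HasMFDerivAt, writtenInExtChartAt, mfld_simps]
  exact and_congr_right fun _ => hasFDerivWithinAt_univ

variable (F) in
/-- The same complex manifold, with charts in an isomorphic vector space. -/
@[reducible] def cs [ChartedSpace G F] (φ : G ≃L[ℂ] H) : ChartedSpace H F where
  atlas := (fun e => e.trans φ.toHomeomorph.toOpenPartialHomeomorph) '' atlas G F
  chartAt x := (chartAt G x).trans φ.toHomeomorph.toOpenPartialHomeomorph
  mem_chart_source x := by simp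
  chart_mem_atlas x := ⟨_, chart_mem_atlas G x, rfl⟩

theorem cs_manifold [ChartedSpace G F] [IsManifold 𝓘(ℂ, G) 1 F] [FiniteDimensional ℂ H]
    (φ : G ≃L[ℂ] H) : letI := cs F φ; IsManifold 𝓘(ℂ, H) ω F := by
  let _ := cs F φ
  have : CompleteSpace H := FiniteDimensional.complete ℂ H
  refine isManifold_of_contDiffOn 𝓘(ℂ, H) ω F ?_
  rintro _ _ ⟨a, ha, rfl⟩ ⟨b, hb, rfl⟩
  simp only [modelWithCornersSelf_coe, modelWithCornersSelf_coe_symm, preimage_id, range_id,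
    inter_univ, Function.id_comp, Function.comp_id]
  refine (P274.HolOs.analyticOnNhd_of_differentiableOn (OpenPartialHomeomorph.open_source _)
    fun z hz => ?_).contDiffOn (OpenPartialHomeomorph.open_source _).uniqueDiffOn
  simp only [mfld_simps] at hz
  have h1 := (mdifferentiable_of_mem_atlas (I := 𝓘(ℂ, G)) ha).symm.mdifferentiableAt hz.1
  have h2 := (mdifferentiable_of_mem_atlas (I := 𝓘(ℂ, G)) hb).mdifferentiableAt hz.2
  exact (φ.differentiableAt.comp z ((h2.comp _ h1).differentiableAt.comp z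
    φ.symm.differentiableAt)).differentiableWithinAt

theorem Imm.tr [ChartedSpace G F] (φ : G ≃L[ℂ] H) (h : Imm V G F) :
    letI := cs F φ; Imm V H F := by
  let _ := cs F φ
  obtain ⟨J, hJ⟩ := h
  refine ⟨J, fun x => ?_⟩
  obtain ⟨W, hW, hx, s, hs⟩ := hJ x
  refine ⟨W, hW, hx, s, fun y hy => ?_⟩
  obtain ⟨a, b, L, hL, hv⟩ := hs y hy
  rw [hasMF_iff] at hL
  refine ⟨a, b, L.comp (φ.symm : H →L[ℂ] G), hasMF_iff.2 ⟨hL.1, ?_⟩, fun v h =>
    φ.symm.injective ((hv _ h).trans (map_zero _).symm)⟩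
  have h1 : HasFDerivAt (s ∘ (chartAt G y).symm) L (φ.symm (φ (chartAt G y y))) := by
    rw [φ.symm_apply_apply]; exact hL.2
  exact h1.comp _ φ.symm.hasFDerivAt

theorem EmbedsIn.tr [ChartedSpace G F] (φ : G ≃L[ℂ] H)
    (h : letI := cs F φ; EmbedsIn V H F) : EmbedsIn V G F := by
  let _ := cs F φ
  obtain ⟨ι, hi, hJ⟩ := h
  refine ⟨ι, hi, fun x => ?_⟩
  obtain ⟨W, hW, hx, s, hs⟩ := hJ x
  refine ⟨W, hW, hx, s, fun y hy => ?_⟩
  obtain ⟨b, L, hL, hv⟩ := hs y hy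
  rw [hasMF_iff] at hL
  refine ⟨b, L.comp (φ : G →L[ℂ] H), hasMF_iff.2 ⟨hL.1, ?_⟩, fun v h =>
    φ.injective ((hv _ h).trans (map_zero _).symm)⟩
  have h1 : HasFDerivAt (s ∘ (chartAt G y).symm ∘ φ.symm) L (φ (chartAt G y y)) := hL.2
  refine (h1.comp _ φ.hasFDerivAt).congr_of_eventuallyEq (Eventually.of_forall fun z => ?_)
  simp

/-- Derivatives in an arbitrary chart of the atlas. -/
theorem chart_deriv [ChartedSpace H F] [IsManifold 𝓘(ℂ, H) 1 F] {e : OpenPartialHomeomorph F H}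
    (he : e ∈ atlas H F) {y : F} (hy : y ∈ e.source) {s : F → V} {L : H →L[ℂ] V}
    (hL : HasMFDerivAt 𝓘(ℂ, H) 𝓘(ℂ, V) s y L) :
    ∃ T : H →L[ℂ] H, Function.Injective T ∧
      HasFDerivAt (fun z => s (e.symm z)) (L.comp T) (e y) := by
  have h1 := (mdifferentiable_of_mem_atlas (I := 𝓘(ℂ, H)) he).symm
  have h2 : e y ∈ e.symm.source := e.map_source hy
  refine ⟨mfderiv 𝓘(ℂ, H) 𝓘(ℂ, H) e.symm (e y), h1.mfderiv_injective h2, ?_⟩
  rw [← e.left_inv hy] at hL
  exact hasMFDerivAt_iff_hasFDerivAt.1 (hL.comp (e y) (h1.mdifferentiableAt h2).hasMFDerivAt)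

theorem chart_analytic [ChartedSpace H F] [IsManifold 𝓘(ℂ, H) 1 F] [FiniteDimensional ℂ H]
    [CompleteSpace V] {e : OpenPartialHomeomorph F H} (he : e ∈ atlas H F) {y : F}
    (hy : y ∈ e.source) {s : F → V} {W : Set F} (hW : IsOpen W) (hyW : y ∈ W)
    (hs : ∀ x ∈ W, ∃ L : H →L[ℂ] V, HasMFDerivAt 𝓘(ℂ, H) 𝓘(ℂ, V) s x L) :
    AnalyticAt ℂ (fun z => s (e.symm z)) (e y) := by
  refine P274.HolOs.analyticOnNhd_of_differentiableOn (e.isOpen_inter_preimage_symm hW)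
    (fun z hz => ?_) _ ⟨e.map_source hy, by rw [mem_preimage, e.left_inv hy]; exact hyW⟩
  obtain ⟨L, hL⟩ := hs _ hz.2
  obtain ⟨T, -, hT⟩ := chart_deriv he (e.map_target hz.1) hL
  rw [e.right_inv hz.1] at hT
  exact hT.differentiableAt.differentiableWithinAt

end Vale.Agent.N274X
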