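import Vale.Agent.N274X.ProjB
import Vale.Agent.P287T.Kd.Kod

/-! A compact complex manifold immersed in a projective space is projective (by the embedding
theorem of Kodaira). -/

open scoped Manifold ContDiff

namespace Vale.Agent.N274X

theorem embeds_of_imm {G F : Type} [NormedAddCommGroup G] [NormedSpace ℂ G]
    [FiniteDimensional ℂ G] [TopologicalSpace F] [ChartedSpace G F] [IsManifold 𝓘(ℂ, G) 1 F]
    [T2Space F] [CompactSpace F] {N : ℕ} (h : Imm (Cn N) G F) : ∃ l, EmbedsIn (Cn l) G F := by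
  let φ : G ≃L[ℂ] (Fin (Module.finrank ℂ G) → ℂ) := ContinuousLinearEquiv.ofFinrankEq (by simp)
  let _ := cs F φ
  have := cs_manifold (F := F) φ
  obtain ⟨L, hL, hp⟩ := positive_of_imm (h.tr φ)
  obtain ⟨l, hl⟩ := embeds_of_ample hL (P287T.Kd.ample_of_positive hL hp)
  exact ⟨l, EmbedsIn.tr φ hl⟩

end Vale.Agent.N274X
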